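import Vale.Agent.P075.Analysis.Approx

/-!
P075: the dyadic bound follows from the finite bound.
-/

open MeasureTheory Set Filter Topology

noncomputable section

namespace Vale.Agent.P075

lemma exists_inBox {F : ℝ × ℝ → ℝ} (hc : HasCompactSupport F) :
    ∃ P : ℤ, ∀ P' : ℤ, P ≤ P' → InBox ((2:ℝ) ^ P') F := by
  obtain ⟨R, hR⟩ := hc.isCompact.isBounded.subset_closedBall (0 : ℝ × ℝ)
  obtain ⟨M, hM⟩ := pow_unbounded_of_one_lt R (by norm_num : (1:ℝ) < 2)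
  refine ⟨M, fun P' hP' p h1 h2 h => ?_⟩
  have hle : (2:ℝ) ^ M ≤ (2:ℝ) ^ P' := by
    rw [← zpow_natCast]
    exact zpow_le_zpow_right₀ (by norm_num) hP'
  refine image_eq_zero_of_notMem_tsupport fun hp => ?_
  have := hR hp
  rw [Metric.mem_closedBall, Prod.dist_eq, max_le_iff, Real.dist_eq, Real.dist_eq] at this
  simp only [Prod.fst_zero, Prod.snd_zero, sub_zero] at this
  rcases h with h | h <;>
    linarith [le_abs_self p.1, le_abs_self p.2, this.1, this.2]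

/-- The additive form of the bound, for all admissible inputs. -/
lemma abs_dyadicForm_le {C : ℝ}
    (hC : ∀ (m : ℕ) (ε : ℕ → ℝ), (∀ l, |ε l| ≤ 1) → ∀ a b c : ℕ → ℕ → ℝ,
      |∑ l ∈ Finset.Icc 1 m, ε l * term l m a b c| ≤ C * (cube m a + cube m b + cube m c))
    (S : Finset ℤ) (ε : ℤ → ℝ) (hε : ∀ k, |ε k| ≤ 1) {F₀ F₁ F₂ : ℝ × ℝ → ℝ}
    (hF₀ : Admissible F₀) (hF₁ : Admissible F₁) (hF₂ : Admissible F₂) :
    |dyadicForm S ε F₀ F₁ F₂| ≤ C * ((∫ p in Ici (0:ℝ) ×ˢ Ici (0:ℝ), |F₀ p| ^ 3) +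
      (∫ p in Ici (0:ℝ) ×ˢ Ici (0:ℝ), |F₁ p| ^ 3) +
      ∫ p in Ici (0:ℝ) ×ˢ Ici (0:ℝ), |F₂ p| ^ 3) := by
  obtain ⟨hm0, ⟨B0, hB0⟩, hc0⟩ := hF₀
  obtain ⟨hm1, ⟨B1, hB1⟩, hc1⟩ := hF₁
  obtain ⟨hm2, ⟨B2, hB2⟩, hc2⟩ := hF₂
  obtain ⟨P0, hP0⟩ := exists_inBox hc0
  obtain ⟨P1, hP1⟩ := exists_inBox hc1
  obtain ⟨P2, hP2⟩ := exists_inBox hc2
  obtain ⟨U, hU⟩ := S.bddAbove
  obtain ⟨L, hL⟩ := S.bddBelow
  set P : ℤ := max (max P0 P1) (max P2 U) with hP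
  have hp0 : P0 ≤ P := le_trans (le_max_left _ _) (le_max_left _ _)
  have hp1 : P1 ≤ P := le_trans (le_max_right _ _) (le_max_left _ _)
  have hp2 : P2 ≤ P := le_trans (le_max_left _ _) (le_max_right _ _)
  have hpU : U ≤ P := le_trans (le_max_right _ _) (le_max_right _ _)
  set B : ℝ := max (max B0 B1) (max B2 0) with hB
  have hBnn : 0 ≤ B := le_trans (le_max_right _ _) (le_max_right _ _)
  have hb0 : ∀ p, |F₀ p| ≤ B :=
    fun p => le_trans (hB0 p) (le_trans (le_max_left _ _) (le_max_left _ _))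
  have hb1 : ∀ p, |F₁ p| ≤ B :=
    fun p => le_trans (hB1 p) (le_trans (le_max_right _ _) (le_max_left _ _))
  have hb2 : ∀ p, |F₂ p| ≤ B :=
    fun p => le_trans (hB2 p) (le_trans (le_max_left _ _) (le_max_right _ _))
  obtain ⟨η0, hη0, happ0⟩ := exists_step_approx hBnn hm0 hb0 hc0 (hP0 P hp0)
  obtain ⟨η1, hη1, happ1⟩ := exists_step_approx hBnn hm1 hb1 hc1 (hP1 P hp1)
  obtain ⟨η2, hη2, happ2⟩ := exists_step_approx hBnn hm2 hb2 hc2 (hP2 P hp2)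
  have hj : ∀ i, ∃ j : ℤ, j ≤ P ∧ j + 1 ≤ L ∧ (2:ℝ) ^ j < η0 i ∧ (2:ℝ) ^ j < η1 i ∧
      (2:ℝ) ^ j < η2 i := by
    intro i
    obtain ⟨N, hN⟩ := exists_pow_lt_of_lt_one
      (lt_min (hη0 i) (lt_min (hη1 i) (hη2 i))) (by norm_num : (2⁻¹:ℝ) < 1)
    have hle : (2:ℝ) ^ min (min P (L - 1)) (-(N:ℤ)) ≤ (2⁻¹:ℝ) ^ N := by
      rw [inv_pow, ← zpow_natCast, ← zpow_neg]
      exact zpow_le_zpow_right₀ (by norm_num) (min_le_right _ _)
    have hlt := lt_of_le_of_lt hle hN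
    rw [lt_min_iff, lt_min_iff] at hlt
    exact ⟨_, le_trans (min_le_left _ _) (min_le_left _ _), by omega, hlt.1, hlt.2.1, hlt.2.2⟩
  choose jj hjP hjL hj0 hj1 hj2 using hj
  obtain ⟨a, ha, hta⟩ := happ0 jj hjP hj0
  obtain ⟨b, hb, htb⟩ := happ1 jj hjP hj1
  obtain ⟨c, hc, htc⟩ := happ2 jj hjP hj2
  have hbox : ∀ (d : ℕ → ℕ → ℕ → ℝ) (i : ℕ),
      InBox ((2:ℝ) ^ P) (stepF (jj i) (P - jj i).toNat (d i)) := by
    intro d i p h1 h2 h
    rw [stepF_apply, if_neg]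
    rintro ⟨-, -, e1, e2⟩
    have e : (2:ℝ) ^ jj i * 2 ^ (P - jj i).toNat = (2:ℝ) ^ P := by
      rw [← zpow_natCast, ← zpow_add₀ (by norm_num)]
      congr 1
      have := hjP i
      omega
    rw [Nat.floor_lt (div_nonneg h1 (two_zpow_pos _).le), div_lt_iff₀ (two_zpow_pos _)] at e1
    rw [Nat.floor_lt (div_nonneg h2 (two_zpow_pos _).le), div_lt_iff₀ (two_zpow_pos _)] at e2
    push_cast at e1 e2
    rcases h with h | h <;> nlinarith
  have ma := fun i => measurable_stepF (jj i) (P - jj i).toNat (a i)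
  have mb := fun i => measurable_stepF (jj i) (P - jj i).toNat (b i)
  have mc := fun i => measurable_stepF (jj i) (P - jj i).toNat (c i)
  have ba := fun i => abs_stepF_le (jj i) (P - jj i).toNat (a i) hBnn (ha i)
  have bb := fun i => abs_stepF_le (jj i) (P - jj i).toNat (b i) hBnn (hb i)
  have bc := fun i => abs_stepF_le (jj i) (P - jj i).toNat (c i) hBnn (hc i)
  refine le_of_tendsto_of_tendsto'
    ((tendsto_dyadicForm (R := (2:ℝ) ^ P) ma mb mc ba bb bc hta htb htc (hbox a) (hbox b)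
      (hP0 P hp0) (hP1 P hp1) S ε).abs)
    ((((tendsto_integral_cube (R := (2:ℝ) ^ P) ma ba hta (hbox a)).add
      (tendsto_integral_cube (R := (2:ℝ) ^ P) mb bb htb (hbox b))).add
      (tendsto_integral_cube (R := (2:ℝ) ^ P) mc bc htc (hbox c))).const_mul C) fun i => ?_
  refine abs_dyadicForm_stepF_le hC S ε hε (jj i) _ (fun k hk => ?_) (a i) (b i) (c i)
  have := hL hk
  have := hU hk
  have := hjP i
  have := hjL i
  omega

lemma LTerm_smul (k : ℤ) (r₀ r₁ r₂ : ℝ) (F₀ F₁ F₂ : ℝ × ℝ → ℝ) (n₀ n₁ n₂ : ℕ) :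
    LTerm k (fun p => r₀ * F₀ p) (fun p => r₁ * F₁ p) (fun p => r₂ * F₂ p) n₀ n₁ n₂ =
      r₀ * r₁ * r₂ * LTerm k F₀ F₁ F₂ n₀ n₁ n₂ := by
  unfold LTerm
  rw [mul_left_comm, ← integral_const_mul, ← integral_const_mul, ← integral_const_mul]
  congr 1
  funext x
  ring

lemma dyadicForm_smul (S : Finset ℤ) (ε : ℤ → ℝ) (r₀ r₁ r₂ : ℝ) (F₀ F₁ F₂ : ℝ × ℝ → ℝ) :
    dyadicForm S ε (fun p => r₀ * F₀ p) (fun p => r₁ * F₁ p) (fun p => r₂ * F₂ p) =
      r₀ * r₁ * r₂ * dyadicForm S ε F₀ F₁ F₂ := by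
  simp only [dyadicForm, LTerm_smul, tsum_mul_left, Finset.mul_sum]
  exact Finset.sum_congr rfl fun k _ => by ring

lemma admissible_smul {F : ℝ × ℝ → ℝ} (h : Admissible F) (r : ℝ) :
    Admissible fun p => r * F p := by
  obtain ⟨hm, ⟨B, hB⟩, hc⟩ := h
  refine ⟨hm.const_mul r, ⟨|r| * B, fun p => ?_⟩, hc.mul_left⟩
  rw [abs_mul]
  exact mul_le_mul_of_nonneg_left (hB p) (abs_nonneg _)

lemma norm3_pow (F : ℝ × ℝ → ℝ) :
    norm3 F ^ 3 = ∫ p in Ici (0:ℝ) ×ˢ Ici (0:ℝ), |F p| ^ 3 := by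
  have h : 0 ≤ ∫ p in Ici (0:ℝ) ×ˢ Ici (0:ℝ), |F p| ^ 3 :=
    integral_nonneg fun p => pow_nonneg (abs_nonneg _) 3
  rw [norm3, ← Real.rpow_natCast, ← Real.rpow_mul h]
  norm_num

lemma integral_smul_cube (F : ℝ × ℝ → ℝ) {r : ℝ} (hr : 0 ≤ r) :
    ∫ p in Ici (0:ℝ) ×ˢ Ici (0:ℝ), |r * F p| ^ 3 = r ^ 3 * norm3 F ^ 3 := by
  simp only [abs_mul, abs_of_nonneg hr, mul_pow]
  rw [integral_const_mul, norm3_pow]

/-- A nonnegative number whose products with all large numbers stay bounded is zero. -/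
lemma eq_zero_of_forall_mul_le {D K : ℝ} (hD : 0 ≤ D) (h : ∀ T : ℝ, 0 ≤ T → T * D ≤ K) :
    D = 0 := by
  rcases hD.eq_or_lt with h' | h'
  · exact h'.symm
  · have := h ((|K| + 1) / D) (by positivity)
    rw [div_mul_cancel₀ _ h'.ne'] at this
    linarith [le_abs_self K]

/-- **Module (a).** The dyadic bound follows from the finite bound. -/
theorem dyadicBound_of_discrete (h : DiscreteBound) : DyadicBound := by
  obtain ⟨C, -, hC⟩ := h
  refine ⟨3 * C, fun S ε hε F₀ F₁ F₂ h0 h1 h2 => ?_⟩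
  set Λ := dyadicForm S ε F₀ F₁ F₂ with hΛ
  have hscale : ∀ r₀ r₁ r₂ : ℝ, 0 ≤ r₀ → 0 ≤ r₁ → 0 ≤ r₂ → r₀ * r₁ * r₂ * |Λ| ≤
      C * (r₀ ^ 3 * norm3 F₀ ^ 3 + r₁ ^ 3 * norm3 F₁ ^ 3 + r₂ ^ 3 * norm3 F₂ ^ 3) := by
    intro r₀ r₁ r₂ hr0 hr1 hr2
    have := abs_dyadicForm_le hC S ε hε (admissible_smul h0 r₀) (admissible_smul h1 r₁)
      (admissible_smul h2 r₂)
    rwa [dyadicForm_smul, abs_mul, abs_of_nonneg (by positivity), integral_smul_cube _ hr0,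
      integral_smul_cube _ hr1, integral_smul_cube _ hr2] at this
  have hnn : ∀ F, 0 ≤ norm3 F := fun F =>
    Real.rpow_nonneg (integral_nonneg fun p => pow_nonneg (abs_nonneg _) 3) _
  rcases (hnn F₀).eq_or_lt with e0 | p0
  · have : |Λ| = 0 := eq_zero_of_forall_mul_le (abs_nonneg _)
      (K := C * (norm3 F₁ ^ 3 + norm3 F₂ ^ 3)) fun T hT => by
        have := hscale T 1 1 hT zero_le_one zero_le_one
        simpa [← e0] using this
    simp [this, ← e0]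
  rcases (hnn F₁).eq_or_lt with e1 | p1
  · have : |Λ| = 0 := eq_zero_of_forall_mul_le (abs_nonneg _)
      (K := C * (norm3 F₀ ^ 3 + norm3 F₂ ^ 3)) fun T hT => by
        have := hscale 1 T 1 zero_le_one hT zero_le_one
        simpa [← e1] using this
    simp [this, ← e1]
  rcases (hnn F₂).eq_or_lt with e2 | p2
  · have : |Λ| = 0 := eq_zero_of_forall_mul_le (abs_nonneg _)
      (K := C * (norm3 F₀ ^ 3 + norm3 F₁ ^ 3)) fun T hT => by
        have := hscale 1 1 T zero_le_one zero_le_one hT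
        simpa [← e2] using this
    simp [this, ← e2]
  have := hscale (norm3 F₀)⁻¹ (norm3 F₁)⁻¹ (norm3 F₂)⁻¹ (inv_nonneg.2 (hnn _))
    (inv_nonneg.2 (hnn _)) (inv_nonneg.2 (hnn _))
  field_simp at this
  nlinarith [this]

end Vale.Agent.P075
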