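import Vale.Agent.P075.Defs

/-!
Spectral coordinates for `gMat` and `fTr`.
-/

open Matrix

noncomputable section

namespace Vale.Agent.P075

variable {n : Type*} [Fintype n] [DecidableEq n]

/-- Orthonormal spectral data of a positive semidefinite matrix: eigenvalues `d i ^ 2`. -/
structure Spec (M : Matrix n n ℝ) where
  U : Matrix n n ℝ
  d : n → ℝ
  nonneg : ∀ i, 0 ≤ d i
  left : Uᵀ * U = 1
  right : U * Uᵀ = 1
  eq : M = U * diagonal (fun i => d i ^ 2) * Uᵀ

lemma exists_spec {M : Matrix n n ℝ} (hM : M.PosSemidef) : Nonempty (Spec M) := by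
  have h := hM.isHermitian
  refine ⟨⟨(h.eigenvectorUnitary : Matrix n n ℝ), fun i => Real.sqrt (h.eigenvalues i),
    fun i => Real.sqrt_nonneg _, ?_, ?_, ?_⟩⟩
  · have := Unitary.coe_star_mul_self h.eigenvectorUnitary
    simpa [star_eq_conjTranspose] using this
  · have := Unitary.coe_mul_star_self h.eigenvectorUnitary
    simpa [star_eq_conjTranspose] using this
  · have := h.spectral_theorem
    rw [Unitary.conjStarAlgAut_apply] at this
    have e : (fun i => Real.sqrt (h.eigenvalues i) ^ 2) = h.eigenvalues := by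
      funext i; exact Real.sq_sqrt (hM.eigenvalues_nonneg i)
    rw [e]
    simpa [star_eq_conjTranspose, Function.comp_def] using this

variable {M : Matrix n n ℝ}

lemma Spec.conj_mul (S : Spec M) (a b : n → ℝ) :
    (S.U * diagonal a * S.Uᵀ) * (S.U * diagonal b * S.Uᵀ)
      = S.U * diagonal (fun i => a i * b i) * S.Uᵀ := by
  calc _ = S.U * diagonal a * (S.Uᵀ * S.U) * diagonal b * S.Uᵀ := by simp [Matrix.mul_assoc]
    _ = _ := by rw [S.left, Matrix.mul_one, Matrix.mul_assoc S.U, diagonal_mul_diagonal]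

lemma Spec.trace_conj (S : Spec M) (a : n → ℝ) :
    (S.U * diagonal a * S.Uᵀ).trace = ∑ i, a i := by
  rw [trace_mul_comm, ← Matrix.mul_assoc, S.left, Matrix.one_mul, trace_diagonal]

lemma Spec.inv_shift (S : Spec M) {s : ℝ} (hs : 0 < s) :
    (M + s • 1)⁻¹ = S.U * diagonal (fun i => 1 / (S.d i ^ 2 + s)) * S.Uᵀ := by
  have e : M + s • 1 = S.U * diagonal (fun i => S.d i ^ 2 + s) * S.Uᵀ := by
    have h1 : (s • (1 : Matrix n n ℝ)) = S.U * diagonal (fun _ => s) * S.Uᵀ := by
      rw [← smul_one_eq_diagonal, Matrix.mul_smul, Matrix.mul_one, Matrix.smul_mul, S.right]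
    conv_lhs => rw [S.eq, h1]
    rw [← Matrix.add_mul, ← Matrix.mul_add, diagonal_add]
  refine Matrix.inv_eq_right_inv ?_
  rw [e, S.conj_mul]
  have : (fun i => (S.d i ^ 2 + s) * (1 / (S.d i ^ 2 + s))) = fun _ => (1:ℝ) := by
    funext i
    have : 0 < S.d i ^ 2 + s := by positivity
    field_simp
  rw [this, diagonal_one, Matrix.mul_one, S.right]

lemma Spec.gMat_eq (S : Spec M) {s : ℝ} (hs : 0 < s) :
    gMat s M = S.U * diagonal (fun i => S.d i ^ 2 / (S.d i ^ 2 + s)) * S.Uᵀ := by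
  rw [gMat, S.inv_shift hs]
  conv_lhs => enter [1]; rw [S.eq]
  rw [S.conj_mul]
  congr 2
  simp [div_eq_mul_inv]

lemma Spec.fTr_eq (S : Spec M) {s : ℝ} (hs : 0 < s) :
    fTr s M = ∑ i, (S.d i ^ 2) ^ 2 / (S.d i ^ 2 + s) := by
  rw [fTr, S.gMat_eq hs, S.trace_conj]
  conv_lhs => enter [1]; rw [S.eq, S.trace_conj]
  rw [Finset.mul_sum, ← Finset.sum_sub_distrib]
  refine Finset.sum_congr rfl fun i _ => ?_
  have : 0 < S.d i ^ 2 + s := by positivity
  field_simp
  ring

omit [DecidableEq n] in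
lemma posSemidef_transpose_mul (A : Matrix n n ℝ) : (Aᵀ * A).PosSemidef := by
  simpa using posSemidef_conjTranspose_mul_self A

omit [DecidableEq n] in
lemma posSemidef_mul_transpose (A : Matrix n n ℝ) : (A * Aᵀ).PosSemidef := by
  simpa using posSemidef_self_mul_conjTranspose A

lemma gMat_mul_transpose (B : Matrix n n ℝ) {s : ℝ} (hs : 0 < s) :
    gMat s (B * Bᵀ) = B * (Bᵀ * B + s • 1)⁻¹ * Bᵀ := by
  have hu : IsUnit (Bᵀ * B + s • 1 : Matrix n n ℝ).det := by
    refine (PosDef.det_pos ?_).ne'.isUnit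
    exact PosDef.posSemidef_add (posSemidef_transpose_mul B) (PosDef.one.smul hs)
  have hv : IsUnit (B * Bᵀ + s • 1 : Matrix n n ℝ).det := by
    refine (PosDef.det_pos ?_).ne'.isUnit
    exact PosDef.posSemidef_add (posSemidef_mul_transpose B) (PosDef.one.smul hs)
  have h1 : B * (Bᵀ * B + s • 1)⁻¹ = (B * Bᵀ + s • 1)⁻¹ * B := by
    have e : B * (Bᵀ * B + s • 1) = (B * Bᵀ + s • 1) * B := by
      simp [Matrix.mul_add, Matrix.add_mul, Matrix.mul_assoc]
    calc B * (Bᵀ * B + s • 1)⁻¹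
        = ((B * Bᵀ + s • 1)⁻¹ * ((B * Bᵀ + s • 1) * B)) * (Bᵀ * B + s • 1)⁻¹ := by
          rw [nonsing_inv_mul_cancel_left _ _ hv]
      _ = _ := by
          rw [← e, ← Matrix.mul_assoc, mul_nonsing_inv_cancel_right _ _ hu]
  rw [h1, gMat, Matrix.mul_assoc _ B Bᵀ]
  generalize B * Bᵀ = M at hv ⊢
  have e : (M + s • 1) * M = M * (M + s • 1) := by simp [Matrix.mul_add, Matrix.add_mul]
  calc M * (M + s • 1)⁻¹ = (M + s • 1)⁻¹ * ((M + s • 1) * M) * (M + s • 1)⁻¹ := by
        rw [nonsing_inv_mul_cancel_left _ _ hv]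
    _ = _ := by rw [e, ← Matrix.mul_assoc, mul_nonsing_inv_cancel_right _ _ hv]

variable {D : Matrix n n ℝ}

lemma IsSignDiag.sq_one (h : IsSignDiag D) : D * D = 1 := by
  obtain ⟨e, he, rfl⟩ := h
  rw [diagonal_mul_diagonal, ← diagonal_one]
  congr 1
  funext i
  rcases he i with hi | hi <;> simp [hi]

omit [Fintype n] in
lemma IsSignDiag.transpose_eq (h : IsSignDiag D) : Dᵀ = D := by
  obtain ⟨e, -, rfl⟩ := h
  exact diagonal_transpose e

lemma IsSignDiag.posSemidef_conj (h : IsSignDiag D) (hM : M.PosSemidef) :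
    (D * M * D).PosSemidef := by
  have := hM.mul_mul_conjTranspose_same D
  simpa [h.transpose_eq] using this

lemma IsSignDiag.gMat_conj (h : IsSignDiag D) (hM : M.PosSemidef) {s : ℝ} (hs : 0 < s) :
    gMat s (D * M * D) = D * gMat s M * D := by
  have hu : IsUnit (M + s • 1 : Matrix n n ℝ).det := by
    refine (PosDef.det_pos ?_).ne'.isUnit
    exact PosDef.posSemidef_add hM (PosDef.one.smul hs)
  have e : (D * M * D + s • 1)⁻¹ = D * (M + s • 1)⁻¹ * D := by
    refine Matrix.inv_eq_right_inv ?_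
    have e1 : D * M * D + s • 1 = D * (M + s • 1) * D := by
      simp [Matrix.mul_add, Matrix.add_mul, h.sq_one]
    rw [e1]
    calc D * (M + s • 1) * D * (D * (M + s • 1)⁻¹ * D)
        = D * (M + s • 1) * (D * D) * (M + s • 1)⁻¹ * D := by simp [Matrix.mul_assoc]
      _ = D * D := by rw [h.sq_one, Matrix.mul_one, Matrix.mul_assoc D, mul_nonsing_inv _ hu,
          Matrix.mul_one, h.sq_one]
      _ = 1 := h.sq_one
  rw [gMat, e, gMat]
  calc D * M * D * (D * (M + s • 1)⁻¹ * D)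
      = D * M * (D * D) * (M + s • 1)⁻¹ * D := by simp [Matrix.mul_assoc]
    _ = _ := by rw [h.sq_one, Matrix.mul_one]; simp [Matrix.mul_assoc]

/-- Trace of `diag a * P * diag b * Pᵀ`. -/
lemma trace_diag_sandwich (a b : n → ℝ) (P : Matrix n n ℝ) :
    (diagonal a * P * diagonal b * Pᵀ).trace = ∑ i, ∑ j, a i * b j * P i j ^ 2 := by
  simp only [trace, diag_apply, Matrix.mul_apply (M := _ * diagonal b), mul_diagonal,
    diagonal_mul, transpose_apply]
  exact Finset.sum_congr rfl fun i _ => Finset.sum_congr rfl fun j _ => by ring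

end Vale.Agent.P075
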