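import Mathlib

/-!
P075, Q2: the dyadic triangular Hilbert form is bounded on `L^3 × L^3 × L^3`.

Definitions and the interfaces between the modules.
-/

open MeasureTheory Matrix

noncomputable section

namespace Vale.Agent.P075

/-! ### The dyadic model, as posed -/

/-- Haar function of `[2^k n, 2^k (n+1))`: `1` on the left half, `-1` on the right half. -/
def haar (k : ℤ) (n : ℕ) : ℝ → ℝ :=
  Set.indicator (Set.Ico ((2:ℝ) ^ k * n) ((2:ℝ) ^ k * (n + 2⁻¹))) (fun _ => (1:ℝ)) -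
  Set.indicator (Set.Ico ((2:ℝ) ^ k * (n + 2⁻¹)) ((2:ℝ) ^ k * (n + 1))) (fun _ => (1:ℝ))

/-- The summand of the dyadic triangular form for one triple of intervals of scale `k`.
The product of the three Haar functions vanishes outside the box of the three intervals. -/
def LTerm (k : ℤ) (F₀ F₁ F₂ : ℝ × ℝ → ℝ) (n₀ n₁ n₂ : ℕ) : ℝ :=
  ((2:ℝ) ^ k)⁻¹ * ∫ x : ℝ × ℝ × ℝ,
    F₀ (x.1, x.2.1) * F₁ (x.2.1, x.2.2) * F₂ (x.2.2, x.1) *
      (haar k n₀ x.1 * haar k n₁ x.2.1 * haar k n₂ x.2.2)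

/-- Triples of indices with bitwise sum zero. -/
abbrev XorTriple := {t : ℕ × ℕ × ℕ // t.1 ^^^ t.2.1 ^^^ t.2.2 = 0}

/-- The dyadic triangular Hilbert form. -/
def dyadicForm (S : Finset ℤ) (ε : ℤ → ℝ) (F₀ F₁ F₂ : ℝ × ℝ → ℝ) : ℝ :=
  ∑ k ∈ S, ε k * ∑' t : XorTriple, LTerm k F₀ F₁ F₂ t.1.1 t.1.2.1 t.1.2.2

/-- The `L^3` norm on the quadrant `[0,∞)^2`. -/
def norm3 (F : ℝ × ℝ → ℝ) : ℝ :=
  (∫ p in Set.Ici (0:ℝ) ×ˢ Set.Ici (0:ℝ), |F p| ^ 3) ^ ((1:ℝ) / 3)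

/-- Real bounded measurable compactly supported inputs. -/
def Admissible (F : ℝ × ℝ → ℝ) : Prop :=
  Measurable F ∧ (∃ B, ∀ p, |F p| ≤ B) ∧ HasCompactSupport F

/-- Q2 of P075, affirmative. -/
def DyadicBound : Prop :=
  ∃ C : ℝ, ∀ (S : Finset ℤ) (ε : ℤ → ℝ), (∀ k, |ε k| ≤ 1) →
    ∀ F₀ F₁ F₂ : ℝ × ℝ → ℝ, Admissible F₀ → Admissible F₁ → Admissible F₂ →
      |dyadicForm S ε F₀ F₁ F₂| ≤ C * (norm3 F₀ * norm3 F₁ * norm3 F₂)

/-! ### The finite model -/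

/-- Haar sign of the cell `x` at level `l`. -/
def hS (l x : ℕ) : ℝ := if x / 2 ^ (l - 1) % 2 = 0 then 1 else -1

/-- Level `l` of the form on arrays indexed by cells in `[0, 2^m)`. -/
def term (l m : ℕ) (a b c : ℕ → ℕ → ℝ) : ℝ :=
  ((2:ℝ) ^ l)⁻¹ * ∑ x ∈ Finset.range (2 ^ m), ∑ y ∈ Finset.range (2 ^ m),
    ∑ z ∈ Finset.range (2 ^ m),
      if (x / 2 ^ l) ^^^ (y / 2 ^ l) ^^^ (z / 2 ^ l) = 0 then
        a x y * b y z * c z x * (hS l x * hS l y * hS l z) else 0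

/-- Cube of the `ℓ^3` norm of an array. -/
def cube (m : ℕ) (a : ℕ → ℕ → ℝ) : ℝ :=
  ∑ x ∈ Finset.range (2 ^ m), ∑ y ∈ Finset.range (2 ^ m), |a x y| ^ 3

/-- The finite bound. -/
def DiscreteBound : Prop :=
  ∃ C : ℝ, 0 ≤ C ∧ ∀ (m : ℕ) (ε : ℕ → ℝ), (∀ l, |ε l| ≤ 1) → ∀ a b c : ℕ → ℕ → ℝ,
    |∑ l ∈ Finset.Icc 1 m, ε l * term l m a b c| ≤ C * (cube m a + cube m b + cube m c)

/-! ### Matrix functions -/

variable {n : Type*} [Fintype n] [DecidableEq n]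

/-- `x ↦ x / (x + s)`. -/
def gMat (s : ℝ) (X : Matrix n n ℝ) : Matrix n n ℝ := X * (X + s • 1)⁻¹

/-- Trace of `x ↦ x² / (x + s)`. -/
def fTr (s : ℝ) (X : Matrix n n ℝ) : ℝ := X.trace - s * (gMat s X).trace

/-- Grid points `t`; the spectral parameter is `s = t²`. -/
def grid (K : ℕ) : Finset ℝ :=
  (Finset.Icc (-(K : ℤ)) (K : ℤ)).image fun j => (2:ℝ) ^ j

/-- Interaction of two positive operators through `D`. -/
def theta (K : ℕ) (D X Y : Matrix n n ℝ) : ℝ :=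
  ∑ t ∈ grid K, t ^ 3 * (gMat (t ^ 2) X * D * gMat (t ^ 2) Y * D).trace

/-- Spectral deficit of a positive operator and its reflection. -/
def deficit (K : ℕ) (D M : Matrix n n ℝ) : ℝ :=
  ∑ t ∈ grid K, t *
    (fTr (t ^ 2) (M + D * M * D) - fTr (t ^ 2) M - fTr (t ^ 2) (D * M * D))

/-- A symmetric unitary diagonal matrix. -/
def IsSignDiag (D : Matrix n n ℝ) : Prop :=
  ∃ e : n → ℝ, (∀ i, e i = 1 ∨ e i = -1) ∧ D = diagonal e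

/-! ### Interfaces -/

/-- Trace facts about `gMat` and `fTr`. -/
def TraceFacts : Prop :=
  ∀ (n : Type) [Fintype n] [DecidableEq n] (s : ℝ), 0 < s → ∀ X Y : Matrix n n ℝ,
    X.PosSemidef → Y.PosSemidef →
      (∀ D, IsSignDiag D →
        (gMat s X * D * gMat s Y * D).trace ≤
          (gMat s (X + Y) * D * gMat s (X + Y) * D).trace) ∧
      0 ≤ fTr s X ∧
      fTr s ((2⁻¹ : ℝ) • (X + Y)) ≤ (fTr s X + fTr s Y) / 2 ∧
      s ^ 2 * (X * ((X + s • 1)⁻¹ * (X + s • 1)⁻¹) * gMat s Y).trace ≤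
        fTr s (X + Y) - fTr s X - fTr s Y

/-- The three-vertex inequality. -/
def VertexBound : Prop :=
  ∃ C : ℝ, 0 ≤ C ∧ ∀ (n : Type) [Fintype n] [DecidableEq n] (A B C' D : Matrix n n ℝ),
    IsSignDiag D → ∀ᶠ K in Filter.atTop,
      |(D * A * D * B * D * C').trace| ≤
        C * (theta K D (Aᵀ * A) (B * Bᵀ) + theta K D (Bᵀ * B) (C' * C'ᵀ) +
          theta K D (C'ᵀ * C') (A * Aᵀ))

/-- The interaction is at most the deficit. -/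
def SelfBound : Prop :=
  ∃ C : ℝ, 0 ≤ C ∧ ∀ (n : Type) [Fintype n] [DecidableEq n] (X Y D : Matrix n n ℝ),
    X.PosSemidef → Y.PosSemidef → IsSignDiag D → ∀ᶠ K in Filter.atTop,
      theta K D X Y ≤ C * deficit K D (X + Y)

/-- Scalar facts about the grid. -/
def GridFacts : Prop :=
  (∀ (K : ℕ) (r : ℝ), 0 ≤ r → ∑ t ∈ grid K, t * ((r ^ 2) ^ 2 / (r ^ 2 + t ^ 2)) ≤ 4 * r ^ 3) ∧
  (∀ (K : ℕ) (p q : ℝ), 0 ≤ q → q ≤ p →
    ∑ t ∈ grid K, t ^ 3 * (p ^ 2 / (p ^ 2 + t ^ 2)) * (q ^ 2 / (q ^ 2 + t ^ 2)) ≤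
      4 * p * q ^ 2) ∧
  (∀ p : ℝ, 0 < p → ∀ᶠ K in Filter.atTop, ∃ t ∈ grid K, p ≤ t ∧ t < 2 * p)

end Vale.Agent.P075
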