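import Vale.Agent.P075.Defs

/-!
Scalar facts about the geometric grid.
-/

noncomputable section

namespace Vale.Agent.P075

lemma sum_two_zpow_le (S : Finset ℤ) (N : ℤ) (h : ∀ j ∈ S, j ≤ N) :
    ∑ j ∈ S, (2:ℝ) ^ j ≤ 2 * (2:ℝ) ^ N := by
  have hinj : Set.InjOn (fun j : ℤ => (N - j).toNat) S := by
    intro a ha b hb hab
    have := h a ha
    have := h b hb
    simp only at hab
    omega
  have e : ∑ j ∈ S, (2:ℝ) ^ j
      = (2:ℝ) ^ N * ∑ d ∈ S.image (fun j : ℤ => (N - j).toNat), ((1:ℝ) / 2) ^ d := by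
    rw [Finset.sum_image hinj, Finset.mul_sum]
    refine Finset.sum_congr rfl fun j hj => ?_
    have hj' : ((N - j).toNat : ℤ) = N - j := Int.toNat_of_nonneg (by have := h j hj; omega)
    rw [one_div, inv_pow, ← zpow_natCast, hj', ← zpow_neg, ← zpow_add₀ two_ne_zero]
    congr 1
    omega
  rw [e, mul_comm 2]
  refine mul_le_mul_of_nonneg_left ?_ (by positivity)
  calc _ ≤ ∑' d : ℕ, ((1:ℝ) / 2) ^ d :=
        summable_geometric_two.sum_le_tsum _ (fun d _ => by positivity)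
    _ = 2 := tsum_geometric_two

lemma sum_grid_eq (K : ℕ) (f : ℝ → ℝ) :
    ∑ t ∈ grid K, f t = ∑ j ∈ Finset.Icc (-(K:ℤ)) (K:ℤ), f ((2:ℝ) ^ j) := by
  rw [grid, Finset.sum_image]
  intro a _ b _ hab
  exact zpow_right_injective₀ (by norm_num : (0:ℝ) < 2) (by norm_num) hab

lemma grid_pos {K : ℕ} {t : ℝ} (h : t ∈ grid K) : 0 < t := by
  simp only [grid, Finset.mem_image] at h
  obtain ⟨j, -, rfl⟩ := h
  positivity

lemma sum_grid_min_le (K : ℕ) (p : ℝ) (hp : 0 ≤ p) :
    ∑ t ∈ grid K, min t (p ^ 2 / t) ≤ 4 * p := by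
  rcases hp.eq_or_lt with rfl | hp
  · refine (Finset.sum_nonpos fun t _ => ?_).trans (by norm_num)
    exact (min_le_right _ _).trans (by simp)
  rw [sum_grid_eq]
  set N := Int.log 2 p with hN
  have h1 : (2:ℝ) ^ N ≤ p := by
    have := Int.zpow_log_le_self (b := 2) (by norm_num : (1:ℕ) < 2) hp
    simpa [hN] using this
  have h2 : p < (2:ℝ) ^ (N + 1) := by
    have := Int.lt_zpow_succ_log_self (b := 2) (by norm_num : (1:ℕ) < 2) p
    simpa [hN] using this
  set I := Finset.Icc (-(K:ℤ)) (K:ℤ)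
  rw [← Finset.sum_filter_add_sum_filter_not I (fun j => j ≤ N)]
  have a : ∑ j ∈ I.filter (fun j => j ≤ N), min ((2:ℝ) ^ j) (p ^ 2 / (2:ℝ) ^ j) ≤ 2 * p := by
    refine (Finset.sum_le_sum fun j _ => min_le_left _ _).trans ?_
    refine (sum_two_zpow_le _ N (fun j hj => (Finset.mem_filter.mp hj).2)).trans ?_
    linarith
  have b : ∑ j ∈ I.filter (fun j => ¬ j ≤ N), min ((2:ℝ) ^ j) (p ^ 2 / (2:ℝ) ^ j) ≤ 2 * p := by
    refine (Finset.sum_le_sum fun j _ => min_le_right _ _).trans ?_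
    have e : ∀ j : ℤ, p ^ 2 / (2:ℝ) ^ j = p ^ 2 * (2:ℝ) ^ (-j) := fun j => by
      rw [zpow_neg, div_eq_mul_inv]
    simp only [e, ← Finset.mul_sum]
    have hs : ∑ j ∈ I.filter (fun j => ¬ j ≤ N), (2:ℝ) ^ (-j) ≤ 2 * (2:ℝ) ^ (-(N + 1)) := by
      have h' := sum_two_zpow_le ((I.filter (fun j => ¬ j ≤ N)).image (fun j => -j)) (-(N + 1))
        (by
          intro j hj
          simp only [Finset.mem_image, Finset.mem_filter] at hj
          obtain ⟨i, hi, rfl⟩ := hj
          omega)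
      rwa [Finset.sum_image (fun a _ b _ hab => neg_injective hab)] at h'
    calc p ^ 2 * _ ≤ p ^ 2 * (2 * (2:ℝ) ^ (-(N + 1))) :=
          mul_le_mul_of_nonneg_left hs (by positivity)
      _ ≤ p ^ 2 * (2 * p⁻¹) := by
          refine mul_le_mul_of_nonneg_left (mul_le_mul_of_nonneg_left ?_ (by norm_num))
            (by positivity)
          rw [zpow_neg]
          exact inv_anti₀ hp h2.le
      _ = 2 * p := by field_simp
  linarith

theorem gridFacts : GridFacts := by
  refine ⟨fun K r hr => ?_, fun K p q hq hqp => ?_, fun p hp => ?_⟩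
  · calc ∑ t ∈ grid K, t * ((r ^ 2) ^ 2 / (r ^ 2 + t ^ 2))
        ≤ ∑ t ∈ grid K, r ^ 2 * min t (r ^ 2 / t) := by
          refine Finset.sum_le_sum fun t ht => ?_
          have htp := grid_pos ht
          rw [mul_min_of_nonneg _ _ (sq_nonneg r), le_min_iff]
          constructor
          · rw [mul_div_assoc', div_le_iff₀ (by positivity)]
            nlinarith [mul_nonneg (mul_nonneg htp.le (sq_nonneg r)) (sq_nonneg t)]
          · rw [mul_div_assoc', mul_div_assoc', div_le_div_iff₀ (by positivity) htp]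
            nlinarith [mul_nonneg (mul_nonneg (sq_nonneg r) (sq_nonneg r)) (sq_nonneg r)]
      _ ≤ r ^ 2 * (4 * r) := by
          rw [← Finset.mul_sum]
          exact mul_le_mul_of_nonneg_left (sum_grid_min_le K r hr) (sq_nonneg r)
      _ = 4 * r ^ 3 := by ring
  · calc ∑ t ∈ grid K, t ^ 3 * (p ^ 2 / (p ^ 2 + t ^ 2)) * (q ^ 2 / (q ^ 2 + t ^ 2))
        ≤ ∑ t ∈ grid K, q ^ 2 * min t (p ^ 2 / t) := by
          refine Finset.sum_le_sum fun t ht => ?_
          have htp := grid_pos ht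
          have hb : q ^ 2 / (q ^ 2 + t ^ 2) ≤ q ^ 2 / t ^ 2 :=
            div_le_div_of_nonneg_left (sq_nonneg q) (by positivity) (by nlinarith)
          have ha : p ^ 2 / (p ^ 2 + t ^ 2) ≤ 1 := by
            rw [div_le_one (by positivity)]; nlinarith
          have ha' : p ^ 2 / (p ^ 2 + t ^ 2) ≤ p ^ 2 / t ^ 2 :=
            div_le_div_of_nonneg_left (sq_nonneg p) (by positivity) (by nlinarith)
          have h0 : 0 ≤ q ^ 2 / (q ^ 2 + t ^ 2) := by positivity
          rw [mul_min_of_nonneg _ _ (sq_nonneg q), le_min_iff]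
          constructor
          · calc _ ≤ t ^ 3 * 1 * (q ^ 2 / t ^ 2) := by gcongr
              _ = q ^ 2 * t := by field_simp
          · calc _ ≤ t ^ 3 * (p ^ 2 / t ^ 2) * (q ^ 2 / t ^ 2) := by gcongr
              _ = q ^ 2 * (p ^ 2 / t) := by field_simp
      _ ≤ q ^ 2 * (4 * p) := by
          rw [← Finset.mul_sum]
          exact mul_le_mul_of_nonneg_left (sum_grid_min_le K p (hq.trans hqp)) (sq_nonneg q)
      _ = 4 * p * q ^ 2 := by ring
  · set N := Int.clog 2 p
    have h1 : p ≤ (2:ℝ) ^ N := by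
      have := Int.self_le_zpow_clog (b := 2) (by norm_num : (1:ℕ) < 2) p
      simpa using this
    have h2 : (2:ℝ) ^ (N - 1) < p := by
      have := Int.zpow_pred_clog_lt_self (b := 2) (by norm_num : (1:ℕ) < 2) hp
      simpa using this
    refine Filter.eventually_atTop.mpr ⟨N.natAbs, fun K hK => ⟨(2:ℝ) ^ N, ?_, h1, ?_⟩⟩
    · exact Finset.mem_image.mpr ⟨N, Finset.mem_Icc.mpr (by omega), rfl⟩
    · rw [zpow_sub_one₀ two_ne_zero] at h2
      linarith

end Vale.Agent.P075
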