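import Vale.Agent.P075.Base
import Vale.Agent.P075.Grid

/-!
The interaction of two positive operators is at most the deficit of their sum.
-/

open Matrix

noncomputable section

namespace Vale.Agent.P075

variable {n : Type*} [Fintype n] [DecidableEq n]

/-- Weight in the deficit. -/
def dwt (K : ℕ) (x y : ℝ) : ℝ :=
  ∑ t ∈ grid K, t ^ 5 * (x ^ 2 / (x ^ 2 + t ^ 2) ^ 2) * (y ^ 2 / (y ^ 2 + t ^ 2))

lemma dwt_nonneg (K : ℕ) (x y : ℝ) : 0 ≤ dwt K x y :=
  Finset.sum_nonneg fun t ht => by have := grid_pos ht; positivity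

lemma pair_le {K : ℕ} {p q : ℝ} (hq : 0 ≤ q) (hqp : q ≤ p)
    (hK : 0 < p → ∃ t ∈ grid K, p ≤ t ∧ t < 2 * p) :
    ∑ t ∈ grid K, t ^ 3 * (p ^ 2 / (p ^ 2 + t ^ 2)) * (q ^ 2 / (q ^ 2 + t ^ 2)) ≤
      500 * dwt K q p := by
  refine (gridFacts.2.1 K p q hq hqp).trans ?_
  have hp : 0 ≤ p := hq.trans hqp
  rcases hp.eq_or_lt with h | hp
  · rw [← h]
    simpa using mul_nonneg (by norm_num : (0:ℝ) ≤ 500) (dwt_nonneg K q 0)
  obtain ⟨t, ht, h1, h2⟩ := hK hp
  have ht0 := grid_pos ht
  have a : q ^ 2 + t ^ 2 ≤ 5 * p ^ 2 := by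
    have := pow_le_pow_left₀ hq hqp 2
    have := pow_le_pow_left₀ ht0.le h2.le 2
    linarith
  have b : p ^ 2 + t ^ 2 ≤ 5 * p ^ 2 := by
    have := pow_le_pow_left₀ ht0.le h2.le 2
    linarith
  have h := Finset.single_le_sum (f := fun t : ℝ =>
    t ^ 5 * (q ^ 2 / (q ^ 2 + t ^ 2) ^ 2) * (p ^ 2 / (p ^ 2 + t ^ 2)))
    (fun s hs => by have := grid_pos hs; positivity) ht
  have h' : p ^ 5 * (q ^ 2 / (5 * p ^ 2) ^ 2) * (p ^ 2 / (5 * p ^ 2)) ≤
      t ^ 5 * (q ^ 2 / (q ^ 2 + t ^ 2) ^ 2) * (p ^ 2 / (p ^ 2 + t ^ 2)) := by gcongr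
  have e : p ^ 5 * (q ^ 2 / (5 * p ^ 2) ^ 2) * (p ^ 2 / (5 * p ^ 2)) = p * q ^ 2 / 125 := by
    field_simp
    ring
  have := h'.trans h
  rw [e] at this
  unfold dwt
  linarith

theorem selfBound (hT : TraceFacts) : SelfBound := by
  refine ⟨1000, by norm_num, ?_⟩
  intro n _ _ X Y D hX hY hD
  have hM : (X + Y).PosSemidef := hX.add hY
  set M := X + Y with hMdef
  obtain ⟨S⟩ := exists_spec hM
  have cov : ∀ᶠ K in Filter.atTop, ∀ i, 0 < S.d i →
      ∃ t ∈ grid K, S.d i ≤ t ∧ t < 2 * S.d i := by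
    refine Filter.eventually_all.mpr fun i => ?_
    by_cases h : 0 < S.d i
    · exact (gridFacts.2.2 _ h).mono fun K hK _ => hK
    · exact Filter.Eventually.of_forall fun K h' => absurd h' h
  filter_upwards [cov] with K hK
  set P := S.Uᵀ * D * S.U with hPdef
  have hPt : Pᵀ = P := by simp [hPdef, transpose_mul, hD.transpose_eq, Matrix.mul_assoc]
  have hsym : ∀ i j, P j i = P i j := fun i j => congrFun (congrFun hPt i) j
  have htr : ∀ a b : n → ℝ, (S.U * diagonal a * S.Uᵀ * D * (S.U * diagonal b * S.Uᵀ) * D).trace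
      = ∑ i, ∑ j, a i * b j * P i j ^ 2 := by
    intro a b
    rw [← trace_diag_sandwich, hPt, hPdef]
    simp only [Matrix.mul_assoc]
    rw [trace_mul_comm]
    simp only [Matrix.mul_assoc]
  have hθ : theta K D X Y ≤ ∑ i, ∑ j, (∑ t ∈ grid K, t ^ 3 *
      (S.d i ^ 2 / (S.d i ^ 2 + t ^ 2)) * (S.d j ^ 2 / (S.d j ^ 2 + t ^ 2))) * P i j ^ 2 := by
    calc theta K D X Y ≤ ∑ t ∈ grid K, t ^ 3 * (gMat (t ^ 2) M * D * gMat (t ^ 2) M * D).trace := by
          refine Finset.sum_le_sum fun t ht => ?_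
          exact mul_le_mul_of_nonneg_left
            ((hT n (t ^ 2) (pow_pos (grid_pos ht) 2) X Y hX hY).1 D hD)
            (pow_nonneg (grid_pos ht).le 3)
      _ = ∑ t ∈ grid K, ∑ i, ∑ j, t ^ 3 * (S.d i ^ 2 / (S.d i ^ 2 + t ^ 2)) *
            (S.d j ^ 2 / (S.d j ^ 2 + t ^ 2)) * P i j ^ 2 := by
          refine Finset.sum_congr rfl fun t ht => ?_
          rw [S.gMat_eq (pow_pos (grid_pos ht) 2), htr, Finset.mul_sum]
          refine Finset.sum_congr rfl fun i _ => ?_
          rw [Finset.mul_sum]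
          exact Finset.sum_congr rfl fun j _ => by ring
      _ = _ := by
          rw [Finset.sum_comm]
          refine Finset.sum_congr rfl fun i _ => ?_
          rw [Finset.sum_comm]
          exact Finset.sum_congr rfl fun j _ => by rw [Finset.sum_mul]
  have hdef : ∑ i, ∑ j, dwt K (S.d i) (S.d j) * P i j ^ 2 ≤ deficit K D M := by
    calc _ = ∑ t ∈ grid K, ∑ i, ∑ j, t ^ 5 * (S.d i ^ 2 / (S.d i ^ 2 + t ^ 2) ^ 2) *
            (S.d j ^ 2 / (S.d j ^ 2 + t ^ 2)) * P i j ^ 2 := by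
          symm
          rw [Finset.sum_comm]
          refine Finset.sum_congr rfl fun i _ => ?_
          rw [Finset.sum_comm]
          exact Finset.sum_congr rfl fun j _ => by rw [dwt, Finset.sum_mul]
      _ ≤ deficit K D M := by
          refine Finset.sum_le_sum fun t ht => ?_
          have hs : 0 < t ^ 2 := pow_pos (grid_pos ht) 2
          refine le_trans (le_of_eq ?_) (mul_le_mul_of_nonneg_left
            (hT n (t ^ 2) hs M (D * M * D) hM (hD.posSemidef_conj hM)).2.2.2 (grid_pos ht).le)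
          rw [hD.gMat_conj hM hs, S.gMat_eq hs]
          set g := diagonal fun i => S.d i ^ 2 / (S.d i ^ 2 + t ^ 2)
          have e : M * ((M + t ^ 2 • 1)⁻¹ * (M + t ^ 2 • 1)⁻¹)
              = S.U * diagonal (fun i => S.d i ^ 2 / (S.d i ^ 2 + t ^ 2) ^ 2) * S.Uᵀ := by
            rw [S.inv_shift hs]
            conv_lhs => enter [1]; rw [S.eq]
            rw [S.conj_mul, S.conj_mul]
            congr 2
            funext i
            field_simp
          rw [e]
          simp only [← Matrix.mul_assoc]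
          have := htr (fun i => S.d i ^ 2 / (S.d i ^ 2 + t ^ 2) ^ 2)
            (fun i => S.d i ^ 2 / (S.d i ^ 2 + t ^ 2))
          simp only [← Matrix.mul_assoc] at this
          rw [this]
          simp only [Finset.mul_sum]
          exact Finset.sum_congr rfl fun i _ => Finset.sum_congr rfl fun j _ => by ring
  refine hθ.trans (le_trans ?_ (mul_le_mul_of_nonneg_left hdef (by norm_num)))
  have hswap : ∑ i, ∑ j, dwt K (S.d j) (S.d i) * P i j ^ 2
      = ∑ i, ∑ j, dwt K (S.d i) (S.d j) * P i j ^ 2 := by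
    rw [Finset.sum_comm]
    exact Finset.sum_congr rfl fun i _ => Finset.sum_congr rfl fun j _ => by rw [hsym]
  calc _ ≤ ∑ i, ∑ j, (500 * (dwt K (S.d i) (S.d j) * P i j ^ 2) +
        500 * (dwt K (S.d j) (S.d i) * P i j ^ 2)) := by
        refine Finset.sum_le_sum fun i _ => Finset.sum_le_sum fun j _ => ?_
        have a := dwt_nonneg K (S.d i) (S.d j)
        have b := dwt_nonneg K (S.d j) (S.d i)
        rcases le_total (S.d j) (S.d i) with h | h
        · have := mul_le_mul_of_nonneg_right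
            (pair_le (S.nonneg j) h (hK i)) (sq_nonneg (P i j))
          nlinarith [mul_nonneg a (sq_nonneg (P i j))]
        · have hp := pair_le (S.nonneg i) h (hK j)
          simp only [mul_right_comm _ (S.d j ^ 2 / _)] at hp
          have := mul_le_mul_of_nonneg_right hp (sq_nonneg (P i j))
          nlinarith [mul_nonneg b (sq_nonneg (P i j))]
    _ = _ := by
        simp only [Finset.sum_add_distrib, ← Finset.mul_sum]
        rw [hswap]
        ring

end Vale.Agent.P075
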