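import Vale.Agent.P075.Base
import Vale.Agent.P075.Grid

/-!
The three-vertex inequality.
-/

open Matrix

noncomputable section

namespace Vale.Agent.P075

variable {n : Type*} [Fintype n] [DecidableEq n]

/-- One-scale weight. -/
def wt (x y t : ℝ) : ℝ := t ^ 3 * (x ^ 2 / (x ^ 2 + t ^ 2)) * (1 / (y ^ 2 + t ^ 2))

/-- Weight summed over the grid. -/
def wgt (K : ℕ) (x y : ℝ) : ℝ := ∑ t ∈ grid K, wt x y t

lemma wt_nonneg (x y : ℝ) {t : ℝ} (ht : 0 < t) : 0 ≤ wt x y t := by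
  unfold wt; positivity

lemma wgt_nonneg (K : ℕ) (x y : ℝ) : 0 ≤ wgt K x y :=
  Finset.sum_nonneg fun _ ht => wt_nonneg _ _ (grid_pos ht)

lemma le_wgt {K : ℕ} {t x y l : ℝ} (ht : t ∈ grid K) (hl : 0 < l) (h1 : l ≤ t) (h2 : t < 2 * l)
    (hx : 0 ≤ x) (hxl : x ≤ l) (hy : 0 ≤ y) (hyl : y ≤ l) :
    x ^ 2 / (25 * l) ≤ wgt K x y := by
  refine le_trans ?_ (Finset.single_le_sum (fun s hs => wt_nonneg x y (grid_pos hs)) ht)
  have ht0 := grid_pos ht
  have a : x ^ 2 + t ^ 2 ≤ 5 * l ^ 2 := by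
    have := pow_le_pow_left₀ hx hxl 2
    have := pow_le_pow_left₀ ht0.le h2.le 2
    linarith
  have b : y ^ 2 + t ^ 2 ≤ 5 * l ^ 2 := by
    have := pow_le_pow_left₀ hy hyl 2
    have := pow_le_pow_left₀ ht0.le h2.le 2
    linarith
  calc x ^ 2 / (25 * l) = l ^ 3 * (x ^ 2 / (5 * l ^ 2)) * (1 / (5 * l ^ 2)) := by
        field_simp
        ring
    _ ≤ wt x y t := by unfold wt; gcongr

/-- Interaction in spectral coordinates. -/
lemma theta_eq (K : ℕ) {A B D : Matrix n n ℝ} (hD : IsSignDiag D)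
    (Sa : Spec (Aᵀ * A)) (Sb : Spec (Bᵀ * B)) :
    theta K D (Aᵀ * A) (B * Bᵀ)
      = ∑ i, ∑ j, wgt K (Sa.d i) (Sb.d j) * (Sa.Uᵀ * D * B * Sb.U) i j ^ 2 := by
  set P := Sa.Uᵀ * D * B * Sb.U with hP
  have e : ∀ t ∈ grid K, t ^ 3 * (gMat (t ^ 2) (Aᵀ * A) * D * gMat (t ^ 2) (B * Bᵀ) * D).trace
      = ∑ i, ∑ j, wt (Sa.d i) (Sb.d j) t * P i j ^ 2 := by
    intro t ht
    have hs : 0 < t ^ 2 := pow_pos (grid_pos ht) 2
    have hPt : Pᵀ = Sb.Uᵀ * Bᵀ * D * Sa.U := by
      simp [hP, transpose_mul, hD.transpose_eq, Matrix.mul_assoc]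
    rw [gMat_mul_transpose B hs, Sa.gMat_eq hs, Sb.inv_shift hs]
    set da := diagonal fun i => Sa.d i ^ 2 / (Sa.d i ^ 2 + t ^ 2)
    set db := diagonal fun j => 1 / (Sb.d j ^ 2 + t ^ 2)
    have : (Sa.U * da * Sa.Uᵀ * D * (B * (Sb.U * db * Sb.Uᵀ) * Bᵀ) * D).trace
        = (da * P * db * Pᵀ).trace := by
      rw [hPt, hP]
      simp only [Matrix.mul_assoc]
      rw [trace_mul_comm]
      simp only [Matrix.mul_assoc]
    rw [this, trace_diag_sandwich, Finset.mul_sum]
    refine Finset.sum_congr rfl fun i _ => ?_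
    rw [Finset.mul_sum]
    refine Finset.sum_congr rfl fun j _ => ?_
    unfold wt; ring
  rw [theta, Finset.sum_congr rfl e, Finset.sum_comm]
  refine Finset.sum_congr rfl fun i _ => ?_
  rw [Finset.sum_comm]
  refine Finset.sum_congr rfl fun j _ => ?_
  rw [wgt, Finset.sum_mul]

/-- The columns of `Uᵀ D B V` have norms given by the spectrum of `Bᵀ B`. -/
lemma col_orth {B D : Matrix n n ℝ} (hD : IsSignDiag D) {M : Matrix n n ℝ} (S : Spec M)
    (Sb : Spec (Bᵀ * B)) :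
    (S.Uᵀ * D * B * Sb.U)ᵀ * (S.Uᵀ * D * B * Sb.U) = diagonal (fun j => Sb.d j ^ 2) := by
  calc _ = Sb.Uᵀ * (Bᵀ * (D * (S.U * S.Uᵀ) * D) * B) * Sb.U := by
        simp [transpose_mul, hD.transpose_eq, Matrix.mul_assoc]
    _ = Sb.Uᵀ * (Bᵀ * B) * Sb.U := by rw [S.right, Matrix.mul_one, hD.sq_one, Matrix.mul_one]
    _ = Sb.Uᵀ * (Sb.U * diagonal (fun j => Sb.d j ^ 2) * Sb.Uᵀ) * Sb.U := by rw [← Sb.eq]
    _ = (Sb.Uᵀ * Sb.U) * diagonal (fun j => Sb.d j ^ 2) * (Sb.Uᵀ * Sb.U) := by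
        simp [Matrix.mul_assoc]
    _ = _ := by rw [Sb.left, Matrix.one_mul, Matrix.mul_one]

omit [DecidableEq n] in
/-- Cauchy-Schwarz and AM-GM at one fixed leading index. -/
lemma row_bound [DecidableEq n] {l : ℝ} (hl : 0 < l) (p r : n → ℝ) (Q : Matrix n n ℝ) (ν : n → ℝ)
    (hQ : Qᵀ * Q = diagonal (fun k => ν k ^ 2)) (J Kk : Finset n) :
    |∑ j ∈ J, ∑ k ∈ Kk, p j * Q j k * r k| ≤
      (∑ j ∈ J, l * p j ^ 2 + ∑ k ∈ Kk, ν k ^ 2 / l * r k ^ 2) / 2 := by
  set v : n → ℝ := fun j => ∑ k ∈ Kk, Q j k * r k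
  have hv : ∑ j ∈ J, v j ^ 2 ≤ ∑ k ∈ Kk, ν k ^ 2 * r k ^ 2 := by
    refine le_trans (Finset.sum_le_univ_sum_of_nonneg fun j => sq_nonneg (v j)) (le_of_eq ?_)
    have hentry : ∀ k k', ∑ j, Q j k * Q j k' = if k = k' then ν k ^ 2 else 0 := by
      intro k k'
      have := congrFun (congrFun hQ k) k'
      simpa [Matrix.mul_apply, diagonal] using this
    calc ∑ j, v j ^ 2 = ∑ j, ∑ k ∈ Kk, ∑ k' ∈ Kk, r k * r k' * (Q j k * Q j k') := by
          refine Finset.sum_congr rfl fun j _ => ?_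
          rw [sq, Finset.sum_mul_sum]
          refine Finset.sum_congr rfl fun k _ => Finset.sum_congr rfl fun k' _ => by ring
      _ = ∑ k ∈ Kk, ∑ k' ∈ Kk, r k * r k' * ∑ j, Q j k * Q j k' := by
          rw [Finset.sum_comm]
          refine Finset.sum_congr rfl fun k _ => ?_
          rw [Finset.sum_comm]
          simp [Finset.mul_sum]
      _ = _ := by
          refine Finset.sum_congr rfl fun k hk => ?_
          simp only [hentry, mul_ite, mul_zero, Finset.sum_ite_eq, hk, if_true]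
          ring
  have e : ∑ j ∈ J, ∑ k ∈ Kk, p j * Q j k * r k = ∑ j ∈ J, p j * v j := by
    refine Finset.sum_congr rfl fun j _ => ?_
    rw [Finset.mul_sum]
    refine Finset.sum_congr rfl fun k _ => by ring
  rw [e]
  refine (Finset.abs_sum_le_sum_abs _ _).trans ?_
  have h2 : ∀ j, |p j * v j| ≤ (l * p j ^ 2 + v j ^ 2 / l) / 2 := by
    intro j
    have e' : (l * p j ^ 2 + v j ^ 2 / l) / 2 - |p j * v j| = (l * |p j| - |v j|) ^ 2 / (2 * l) := by
      rw [abs_mul, ← sq_abs (p j), ← sq_abs (v j)]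
      field_simp
      ring
    have : 0 ≤ (l * |p j| - |v j|) ^ 2 / (2 * l) := by positivity
    linarith
  refine (Finset.sum_le_sum fun j _ => h2 j).trans ?_
  rw [← Finset.sum_div, Finset.sum_add_distrib]
  gcongr
  rw [← Finset.sum_div]
  calc (∑ j ∈ J, v j ^ 2) / l ≤ (∑ k ∈ Kk, ν k ^ 2 * r k ^ 2) / l := by gcongr
    _ = _ := by
        rw [Finset.sum_div]
        refine Finset.sum_congr rfl fun k _ => by ring

/-- All triples led by the index `i`. -/
lemma leading_bound (K : ℕ) (la mu nu : n → ℝ) (hla : ∀ i, 0 ≤ la i) (hmu : ∀ i, 0 ≤ mu i)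
    (hnu : ∀ i, 0 ≤ nu i) (P Q R : Matrix n n ℝ)
    (hQ : Qᵀ * Q = diagonal (fun k => nu k ^ 2))
    (hR : Rᵀ * R = diagonal (fun i => la i ^ 2))
    (hK : ∀ i, 0 < la i → ∃ t ∈ grid K, la i ≤ t ∧ t < 2 * la i)
    (J Kk : n → Finset n) (hJ : ∀ i, ∀ j ∈ J i, mu j ≤ la i)
    (hKk : ∀ i, ∀ k ∈ Kk i, nu k ≤ la i) :
    |∑ i, ∑ j ∈ J i, ∑ k ∈ Kk i, P i j * Q j k * R k i| ≤
      25 / 2 * (∑ i, ∑ j, wgt K (la i) (mu j) * P i j ^ 2) +
      25 / 2 * (∑ k, ∑ i, wgt K (nu k) (la i) * R k i ^ 2) := by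
  refine (Finset.abs_sum_le_sum_abs _ _).trans ?_
  rw [Finset.sum_comm (γ := n) (f := fun k i => wgt K (nu k) (la i) * R k i ^ 2),
    Finset.mul_sum, Finset.mul_sum, ← Finset.sum_add_distrib]
  refine Finset.sum_le_sum fun i _ => ?_
  rcases (hla i).eq_or_lt with h0 | hl
  · have hz : ∀ k, R k i = 0 := by
      intro k
      have h := congrFun (congrFun hR i) i
      simp only [Matrix.mul_apply, transpose_apply, diagonal_apply_eq, ← h0,
        zero_pow two_ne_zero] at h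
      have := (Finset.sum_eq_zero_iff_of_nonneg fun j _ => mul_self_nonneg (R j i)).mp h k
        (Finset.mem_univ _)
      exact mul_self_eq_zero.mp this
    simp only [hz, mul_zero, Finset.sum_const_zero, abs_zero]
    refine add_nonneg (mul_nonneg (by norm_num) (Finset.sum_nonneg fun j _ => ?_)) (by simp)
    exact mul_nonneg (wgt_nonneg _ _ _) (sq_nonneg _)
  obtain ⟨t, ht, h1, h2⟩ := hK i hl
  refine (row_bound hl _ (fun k => R k i) Q nu hQ (J i) (Kk i)).trans ?_
  rw [add_div]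
  refine add_le_add ?_ ?_
  · rw [Finset.sum_div, Finset.mul_sum]
    refine (Finset.sum_le_sum fun j hj => ?_).trans
      (Finset.sum_le_univ_sum_of_nonneg fun j =>
        mul_nonneg (by norm_num) (mul_nonneg (wgt_nonneg _ _ _) (sq_nonneg _)))
    have h := le_wgt ht hl h1 h2 hl.le le_rfl (hmu j) (hJ i j hj)
    have e : la i ^ 2 / (25 * la i) = la i / 25 := by field_simp
    rw [e] at h
    have := mul_le_mul_of_nonneg_right h (sq_nonneg (P i j))
    linarith
  · rw [Finset.sum_div, Finset.mul_sum]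
    refine (Finset.sum_le_sum fun k hk => ?_).trans
      (Finset.sum_le_univ_sum_of_nonneg fun k =>
        mul_nonneg (by norm_num) (mul_nonneg (wgt_nonneg _ _ _) (sq_nonneg _)))
    have h := le_wgt ht hl h1 h2 (hnu k) (hKk i k hk) hl.le le_rfl
    have e : nu k ^ 2 / (25 * la i) = nu k ^ 2 / la i / 25 := by field_simp
    rw [e] at h
    have := mul_le_mul_of_nonneg_right h (sq_nonneg (R k i))
    linarith

theorem vertexBound : VertexBound := by
  refine ⟨25, by norm_num, ?_⟩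
  intro n _ _ A B C' D hD
  obtain ⟨Sa⟩ := exists_spec (posSemidef_transpose_mul A)
  obtain ⟨Sb⟩ := exists_spec (posSemidef_transpose_mul B)
  obtain ⟨Sc⟩ := exists_spec (posSemidef_transpose_mul C')
  have cov : ∀ d : n → ℝ, ∀ᶠ K in Filter.atTop, ∀ i, 0 < d i →
      ∃ t ∈ grid K, d i ≤ t ∧ t < 2 * d i := by
    intro d
    refine Filter.eventually_all.mpr fun i => ?_
    by_cases h : 0 < d i
    · exact (gridFacts.2.2 _ h).mono fun K hK _ => hK
    · exact Filter.Eventually.of_forall fun K h' => absurd h' h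
  filter_upwards [cov Sa.d, cov Sb.d, cov Sc.d] with K ka kb kc
  rw [theta_eq K hD Sa Sb, theta_eq K hD Sb Sc, theta_eq K hD Sc Sa]
  have hP := col_orth hD Sa Sb
  have hQ := col_orth hD Sb Sc
  have hR := col_orth hD Sc Sa
  set P := Sa.Uᵀ * D * B * Sb.U with hPdef
  set Q := Sb.Uᵀ * D * C' * Sc.U with hQdef
  set R := Sc.Uᵀ * D * A * Sa.U with hRdef
  set la := Sa.d
  set mu := Sb.d
  set nu := Sc.d
  have htr : (D * A * D * B * D * C').trace = ∑ i, ∑ j, ∑ k, P i j * Q j k * R k i := by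
    have e1 : (P * Q * R).trace = (D * A * D * B * D * C').trace := by
      calc (P * Q * R).trace
          = (Sa.Uᵀ * (D * B * (Sb.U * Sb.Uᵀ) * D * C' * (Sc.U * Sc.Uᵀ) * D * A) * Sa.U).trace := by
            simp [hPdef, hQdef, hRdef, Matrix.mul_assoc]
        _ = (D * B * D * C' * (D * A)).trace := by
            rw [Sb.right, Sc.right, Matrix.mul_one, Matrix.mul_one, trace_mul_comm,
              ← Matrix.mul_assoc, Sa.right, Matrix.one_mul, Matrix.mul_assoc _ D A]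
        _ = _ := by rw [trace_mul_comm]; simp [Matrix.mul_assoc]
    rw [← e1, trace]
    refine Finset.sum_congr rfl fun i _ => ?_
    simp only [diag_apply, Matrix.mul_apply, Finset.sum_mul]
    exact Finset.sum_comm
  set J1 : n → Finset n := fun i => Finset.univ.filter fun j => mu j ≤ la i
  set K1 : n → Finset n := fun i => Finset.univ.filter fun k => nu k ≤ la i
  set K2 : n → Finset n := fun j => Finset.univ.filter fun k => nu k ≤ mu j
  set I2 : n → Finset n := fun j => Finset.univ.filter fun i => la i < mu j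
  set I3 : n → Finset n := fun k => Finset.univ.filter fun i => la i < nu k
  set J3 : n → Finset n := fun k => Finset.univ.filter fun j => mu j < nu k
  have h1 := leading_bound K la mu nu Sa.nonneg Sb.nonneg Sc.nonneg P Q R hQ hR ka J1 K1
    (fun i j h => (Finset.mem_filter.mp h).2) (fun i k h => (Finset.mem_filter.mp h).2)
  have h2 := leading_bound K mu nu la Sb.nonneg Sc.nonneg Sa.nonneg Q R P hR hP kb K2 I2
    (fun i j h => (Finset.mem_filter.mp h).2) (fun i k h => (Finset.mem_filter.mp h).2.le)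
  have h3 := leading_bound K nu la mu Sc.nonneg Sa.nonneg Sb.nonneg R P Q hP hQ kc I3 J3
    (fun i j h => (Finset.mem_filter.mp h).2.le) (fun i k h => (Finset.mem_filter.mp h).2.le)
  have split : ∑ i, ∑ j, ∑ k, P i j * Q j k * R k i
      = (∑ i, ∑ j ∈ J1 i, ∑ k ∈ K1 i, P i j * Q j k * R k i)
        + (∑ j, ∑ k ∈ K2 j, ∑ i ∈ I2 j, Q j k * R k i * P i j)
        + (∑ k, ∑ i ∈ I3 k, ∑ j ∈ J3 k, R k i * P i j * Q j k) := by
    have cyc : ∀ g : n → n → n → ℝ, ∑ j, ∑ k, ∑ i, g i j k = ∑ i, ∑ j, ∑ k, g i j k := by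
      intro g; rw [Finset.sum_comm_cycle]
    have pull : ∀ (p : Prop) [Decidable p] (g : n → ℝ),
        (if p then ∑ i, g i else 0) = ∑ i, if p then g i else 0 := by
      intro p _ g; split_ifs <;> simp
    simp only [J1, K1, K2, I2, I3, J3, Finset.sum_filter, pull]
    rw [cyc fun i j k => if nu k ≤ mu j then (if la i < mu j then
      Q j k * R k i * P i j else 0) else 0]
    rw [← cyc fun k i j => if la i < nu k then (if mu j < nu k then
      R k i * P i j * Q j k else 0) else 0]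
    simp only [← Finset.sum_add_distrib]
    refine Finset.sum_congr rfl fun i _ => Finset.sum_congr rfl fun j _ =>
      Finset.sum_congr rfl fun k _ => ?_
    grind
  rw [htr, split]
  refine (abs_add_three _ _ _).trans ?_
  linarith

end Vale.Agent.P075
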