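import Vale.Agent.P075.Level
import Vale.Agent.P075.Vertex
import Vale.Agent.P075.Self

/-!
The finite bound.
-/

open Matrix

noncomputable section

namespace Vale.Agent.P075

lemma sum_range_blocks (N n : ℕ) (f : ℕ → ℝ) :
    ∑ x ∈ Finset.range (N * n), f x = ∑ u ∈ Finset.range N, ∑ i : Fin n, f (u * n + i) := by
  induction N with
  | zero => simp
  | succ N ih =>
    rw [Nat.succ_mul, Finset.sum_range_add, ih, Finset.sum_range_succ _ N,
      Finset.sum_range (fun i => f (N * n + i))]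

lemma sum_xor_left {k v : ℕ} (hv : v < 2 ^ k) (f : ℕ → ℝ) :
    ∑ u ∈ Finset.range (2 ^ k), f (u ^^^ v) = ∑ u ∈ Finset.range (2 ^ k), f u := by
  refine Finset.sum_bij' (fun u _ => u ^^^ v) (fun u _ => u ^^^ v) ?_ ?_ ?_ ?_ ?_ <;>
    intro u hu <;> simp only [Finset.mem_range] at hu ⊢
  · exact Nat.xor_lt_two_pow hu hv
  · exact Nat.xor_lt_two_pow hu hv
  all_goals simp

lemma rot_sum (k : ℕ) (F : ℕ → ℕ → ℕ → ℝ) :
    ∑ u ∈ Finset.range (2 ^ k), ∑ v ∈ Finset.range (2 ^ k), F v (u ^^^ v) u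
      = ∑ u ∈ Finset.range (2 ^ k), ∑ v ∈ Finset.range (2 ^ k), F u v (u ^^^ v) := by
  rw [Finset.sum_comm]
  refine Finset.sum_congr rfl fun v hv => ?_
  rw [Finset.mem_range] at hv
  rw [← sum_xor_left hv (fun w => F v w (v ^^^ w))]
  refine Finset.sum_congr rfl fun u _ => ?_
  congr 1
  rw [Nat.xor_comm u v, ← Nat.xor_assoc, Nat.xor_self, Nat.zero_xor]

lemma rot_sum_two (k : ℕ) (F : ℕ → ℕ → ℕ → ℝ) :
    ∑ u ∈ Finset.range (2 ^ k), ∑ v ∈ Finset.range (2 ^ k), F (u ^^^ v) u v
      = ∑ u ∈ Finset.range (2 ^ k), ∑ v ∈ Finset.range (2 ^ k), F u v (u ^^^ v) :=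
  (rot_sum k fun u v w => F v w u).trans (rot_sum k F)

/-- One level written with matrices. -/
lemma term_eq (L k m l : ℕ) (hl : 1 ≤ l) (hL : L = 2 ^ (l - 1)) (hm : m = k + l)
    (a b c : ℕ → ℕ → ℝ) :
    term l m a b c = ((2 * L : ℕ) : ℝ) ^ 2 * ∑ u ∈ Finset.range (2 ^ k),
      ∑ v ∈ Finset.range (2 ^ k),
        (dHalf L * par L a u v * dHalf L * par L b v (u ^^^ v) * dHalf L *
          par L c (u ^^^ v) u).trace := by
  have h2 : 2 ^ l = 2 * L := by rw [hL, ← pow_succ', Nat.sub_add_cancel hl]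
  have hLpos : 0 < L := by rw [hL]; positivity
  set pos : ℕ → Fin L × Fin 2 → ℕ := fun u p => u * (2 * L) + (p.1 + L * p.2) with hpos
  have hsum : ∀ f : ℕ → ℝ, ∑ x ∈ Finset.range (2 ^ m), f x
      = ∑ u ∈ Finset.range (2 ^ k), ∑ p, f (pos u p) := by
    intro f
    rw [hm, pow_add, h2, sum_range_blocks]
    refine Finset.sum_congr rfl fun u _ => ?_
    rw [← (halfEquiv L).sum_comp fun i : Fin (2 * L) => f (u * (2 * L) + (i:ℕ))]
    simp [hpos]
  have hlt : ∀ p : Fin L × Fin 2, (p.1:ℕ) + L * p.2 < 2 * L := fun p => by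
    have := (halfEquiv L p).2
    rwa [halfEquiv_val] at this
  have hdiv : ∀ u p, pos u p / 2 ^ l = u := fun u p => by
    simp only [hpos]
    rw [h2, Nat.mul_comm u, Nat.mul_add_div (by omega), Nat.div_eq_of_lt (hlt p), add_zero]
  set sg : Fin L × Fin 2 → ℝ := fun p => if p.2 = 0 then 1 else -1 with hsg
  have hhs : ∀ u p, hS l (pos u p) = sg p := by
    intro u p
    have e : pos u p / 2 ^ (l - 1) % 2 = p.2 := by
      simp only [hpos]
      rw [← hL, show u * (2 * L) + ((p.1:ℕ) + L * p.2) = p.1 + L * (2 * u + p.2) by ring,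
        Nat.add_mul_div_left _ _ hLpos, Nat.div_eq_of_lt p.1.2]
      omega
    unfold hS
    rw [e, hsg]
    rcases p with ⟨i, h⟩
    fin_cases h <;> simp
  have hpa : ∀ (f : ℕ → ℕ → ℝ) u v p q,
      f (pos u p) (pos v q) = (2 ^ l : ℝ) * par L f u v p q := by
    intro f u v p q
    simp only [par, submatrix_apply, blk, Matrix.of_apply, halfEquiv_val, hpos]
    have : ((2 * L : ℕ) : ℝ) = 2 ^ l := by rw [← h2]; push_cast; ring
    rw [this, mul_div_cancel₀ _ (by positivity)]
  have htr : ∀ u v w, (dHalf L * par L a u v * dHalf L * par L b v w * dHalf L *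
      par L c w u).trace = ∑ p, ∑ q, ∑ r,
        par L a u v p q * par L b v w q r * par L c w u r p * (sg p * sg q * sg r) := by
    intro u v w
    simp only [trace, diag_apply, Matrix.mul_apply (N := par L c w u), dHalf, mul_diagonal]
    refine Finset.sum_congr rfl fun p _ => ?_
    simp only [Matrix.mul_apply (N := par L b v w), mul_diagonal, diagonal_mul, Finset.sum_mul]
    rw [Finset.sum_comm]
    refine Finset.sum_congr rfl fun q _ => Finset.sum_congr rfl fun r _ => ?_
    simp only [hsg]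
    ring
  simp only [term, hsum, hdiv, hhs, hpa, htr, Finset.mul_sum]
  refine Finset.sum_congr rfl fun u hu => ?_
  rw [Finset.sum_comm]
  refine Finset.sum_congr rfl fun v hv => Finset.sum_congr rfl fun p _ => ?_
  refine Finset.sum_congr rfl fun q _ => ?_
  rw [Finset.sum_comm]
  refine Finset.sum_congr rfl fun r _ => ?_
  rw [Finset.mem_range] at hu hv
  rw [Finset.sum_eq_single (u ^^^ v)]
  · rw [if_pos (Nat.xor_self _)]
    have : ((2 * L : ℕ) : ℝ) = 2 ^ l := by rw [← h2]; push_cast; ring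
    rw [this]
    field_simp
  · intro w _ hw
    rw [if_neg, mul_zero]
    intro h0
    exact hw (Nat.xor_eq_zero_iff.mp h0).symm
  · intro h
    exact absurd (Finset.mem_range.mpr (Nat.xor_lt_two_pow hu hv)) h

/-- Potential of level `l`. -/
def levelPot (K m l : ℕ) (a b : ℕ → ℕ → ℝ) : ℝ :=
  ∑ t ∈ grid K, t * pot (t ^ 2) (2 ^ l) (2 ^ (m - l)) a b

/-- Deficits of level `l`. -/
def levelDef (K m l : ℕ) (a b : ℕ → ℕ → ℝ) : ℝ :=
  ((2 * 2 ^ (l - 1) : ℕ) : ℝ) ^ 2 * ∑ u ∈ Finset.range (2 ^ (m - l)),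
    ∑ v ∈ Finset.range (2 ^ (m - l)),
      deficit K (dHalf (2 ^ (l - 1))) (pgram (2 ^ (l - 1)) a b u v (u ^^^ v))

lemma levelPot_nonneg (hT : TraceFacts) (K m l : ℕ) (a b : ℕ → ℕ → ℝ) :
    0 ≤ levelPot K m l a b := by
  refine Finset.sum_nonneg fun t ht => mul_nonneg (grid_pos ht).le (mul_nonneg (sq_nonneg _) ?_)
  exact Finset.sum_nonneg fun u _ => Finset.sum_nonneg fun v _ =>
    (hT _ _ (pow_pos (grid_pos ht) 2) _ _ (gram_psd ..) (gram_psd (2 ^ l) a b u v 0)).2.1

lemma levelDef_le (hT : TraceFacts) (K m l : ℕ) (hl : 1 ≤ l) (hlm : l ≤ m) (a b : ℕ → ℕ → ℝ) :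
    levelDef K m l a b ≤ 2 * (levelPot K m (l - 1) a b - levelPot K m l a b) := by
  set L := 2 ^ (l - 1) with hL
  have h2 : 2 ^ l = 2 * L := by rw [hL, ← pow_succ', Nat.sub_add_cancel hl]
  have hN : 2 ^ (m - (l - 1)) = 2 * 2 ^ (m - l) := by
    rw [show m - (l - 1) = m - l + 1 by omega, pow_succ']
  rw [levelPot, levelPot, h2, ← hL, hN, ← Finset.sum_sub_distrib, levelDef, Finset.mul_sum]
  simp only [deficit]
  calc _ = ∑ t ∈ grid K, t * (((2 * L : ℕ) : ℝ) ^ 2 * ∑ u ∈ Finset.range (2 ^ (m - l)),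
      ∑ v ∈ Finset.range (2 ^ (m - l)),
        (fTr (t ^ 2) (pgram L a b u v (u ^^^ v) + dHalf L * pgram L a b u v (u ^^^ v) * dHalf L)
          - fTr (t ^ 2) (pgram L a b u v (u ^^^ v))
          - fTr (t ^ 2) (dHalf L * pgram L a b u v (u ^^^ v) * dHalf L))) := by
        simp only [Finset.mul_sum, ← hL]
        symm
        rw [Finset.sum_comm]
        refine Finset.sum_congr rfl fun u _ => ?_
        rw [Finset.sum_comm]
        exact Finset.sum_congr rfl fun v _ => Finset.sum_congr rfl fun t _ => by ring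
    _ ≤ _ := by
        rw [Finset.mul_sum]
        refine Finset.sum_le_sum fun t ht => ?_
        have := mul_le_mul_of_nonneg_left
          (step L a b (2 ^ (m - l)) (pow_pos (grid_pos ht) 2) hT) (grid_pos ht).le
        linarith

lemma levelPot_zero_le (K m : ℕ) (a b : ℕ → ℕ → ℝ) :
    levelPot K m 0 a b ≤ 16 * (cube m a + cube m b) := by
  set R := Finset.range (2 ^ m)
  set x : ℕ → ℕ → ℝ := fun u v => a u v ^ 2 + b v (u ^^^ v) ^ 2 with hx
  have hpot : ∀ t ∈ grid K, pot (t ^ 2) 1 (2 ^ m) a b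
      = ∑ u ∈ R, ∑ v ∈ R, x u v ^ 2 / (x u v + t ^ 2) := by
    intro t ht
    simp only [pot, Nat.cast_one, one_pow, one_mul]
    refine Finset.sum_congr rfl fun u _ => Finset.sum_congr rfl fun v _ => ?_
    have hs : 0 < t ^ 2 := pow_pos (grid_pos ht) 2
    obtain ⟨S⟩ := exists_spec (gram_psd 1 a b u v (u ^^^ v))
    have hd : S.d 0 ^ 2 = x u v := by
      have h := congrArg trace S.eq
      rw [S.trace_conj] at h
      simpa [trace, gram, blk, Matrix.mul_apply, hx, sq] using h.symm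
    rw [S.fTr_eq hs, Fin.sum_univ_one, hd]
  calc levelPot K m 0 a b = ∑ u ∈ R, ∑ v ∈ R, ∑ t ∈ grid K, t * (x u v ^ 2 / (x u v + t ^ 2)) := by
        rw [levelPot, pow_zero, Nat.sub_zero, Finset.sum_congr rfl fun t ht => by rw [hpot t ht]]
        simp only [Finset.mul_sum]
        rw [Finset.sum_comm]
        exact Finset.sum_congr rfl fun u _ => Finset.sum_comm
    _ ≤ ∑ u ∈ R, ∑ v ∈ R, (16 * |a u v| ^ 3 + 16 * |b v (u ^^^ v)| ^ 3) := by
        refine Finset.sum_le_sum fun u _ => Finset.sum_le_sum fun v _ => ?_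
        have hx0 : 0 ≤ x u v := by simp only [hx]; positivity
        have h := gridFacts.1 K (Real.sqrt (x u v)) (Real.sqrt_nonneg _)
        rw [Real.sq_sqrt hx0] at h
        refine h.trans ?_
        have hr : Real.sqrt (x u v) ≤ |a u v| + |b v (u ^^^ v)| := by
          rw [Real.sqrt_le_left (by positivity)]
          simp only [hx]
          nlinarith [sq_abs (a u v), sq_abs (b v (u ^^^ v)), abs_nonneg (a u v),
            abs_nonneg (b v (u ^^^ v))]
        have h3 := pow_le_pow_left₀ (Real.sqrt_nonneg _) hr 3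
        have h4 : (|a u v| + |b v (u ^^^ v)|) ^ 3 ≤ 4 * (|a u v| ^ 3 + |b v (u ^^^ v)| ^ 3) := by
          nlinarith [mul_nonneg (add_nonneg (abs_nonneg (a u v)) (abs_nonneg (b v (u ^^^ v))))
            (sq_nonneg (|a u v| - |b v (u ^^^ v)|))]
        linarith
    _ = _ := by
        simp only [Finset.sum_add_distrib, ← Finset.mul_sum, cube]
        rw [Finset.sum_comm (f := fun u v => |b v (u ^^^ v)| ^ 3)]
        rw [Finset.sum_congr rfl fun v hv => sum_xor_left (Finset.mem_range.mp hv)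
          (fun w => |b v w| ^ 3)]
        ring

lemma sum_levelDef_le (hT : TraceFacts) (K m : ℕ) (a b : ℕ → ℕ → ℝ) :
    ∑ l ∈ Finset.Icc 1 m, levelDef K m l a b ≤ 32 * (cube m a + cube m b) := by
  refine le_trans (Finset.sum_le_sum fun l hl => levelDef_le hT K m l (Finset.mem_Icc.mp hl).1
    (Finset.mem_Icc.mp hl).2 a b) ?_
  rw [← Finset.mul_sum]
  have key : ∀ j, ∑ l ∈ Finset.Icc 1 j, (levelPot K m (l - 1) a b - levelPot K m l a b)
      = levelPot K m 0 a b - levelPot K m j a b := by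
    intro j
    induction j with
    | zero => simp
    | succ j ih =>
      rw [Finset.sum_Icc_succ_top (by omega), ih, Nat.add_sub_cancel]
      ring
  rw [key]
  have := levelPot_nonneg hT K m m a b
  have := levelPot_zero_le K m a b
  linarith

theorem discreteBound (hT : TraceFacts) : DiscreteBound := by
  obtain ⟨CV, hCV, hV⟩ := vertexBound
  obtain ⟨CS, hCS, hS'⟩ := selfBound hT
  refine ⟨CV * CS * 64, by positivity, fun m ε hε a b c => ?_⟩
  set N : ℕ → ℕ := fun l => 2 ^ (m - l)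
  have hev : ∀ᶠ K in Filter.atTop, ∀ l ∈ Finset.Icc 1 m, ∀ u ∈ Finset.range (N l),
      ∀ v ∈ Finset.range (N l),
      |(dHalf (2 ^ (l - 1)) * par (2 ^ (l - 1)) a u v * dHalf (2 ^ (l - 1)) *
        par (2 ^ (l - 1)) b v (u ^^^ v) * dHalf (2 ^ (l - 1)) *
        par (2 ^ (l - 1)) c (u ^^^ v) u).trace| ≤
      CV * (CS * deficit K (dHalf (2 ^ (l - 1))) (pgram (2 ^ (l - 1)) a b u v (u ^^^ v)) +
        CS * deficit K (dHalf (2 ^ (l - 1))) (pgram (2 ^ (l - 1)) b c v (u ^^^ v) u) +
        CS * deficit K (dHalf (2 ^ (l - 1))) (pgram (2 ^ (l - 1)) c a (u ^^^ v) u v)) := by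
    refine (Finset.eventually_all _).mpr fun l _ => (Finset.eventually_all _).mpr fun u _ =>
      (Finset.eventually_all _).mpr fun v _ => ?_
    set L := 2 ^ (l - 1)
    set w := u ^^^ v
    have hD := isSignDiag_dHalf L
    filter_upwards [hV _ (par L a u v) (par L b v w) (par L c w u) (dHalf L) hD,
      hS' _ _ _ (dHalf L) (posSemidef_transpose_mul (par L a u v))
        (posSemidef_mul_transpose (par L b v w)) hD,
      hS' _ _ _ (dHalf L) (posSemidef_transpose_mul (par L b v w))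
        (posSemidef_mul_transpose (par L c w u)) hD,
      hS' _ _ _ (dHalf L) (posSemidef_transpose_mul (par L c w u))
        (posSemidef_mul_transpose (par L a u v)) hD] with K h h1 h2 h3
    exact h.trans (mul_le_mul_of_nonneg_left (add_le_add (add_le_add h1 h2) h3) hCV)
  obtain ⟨K, hK⟩ := hev.exists
  have key : ∀ l ∈ Finset.Icc 1 m, |ε l * term l m a b c| ≤
      CV * CS * (levelDef K m l a b + levelDef K m l b c + levelDef K m l c a) := by
    intro l hl
    obtain ⟨hl1, hlm⟩ := Finset.mem_Icc.mp hl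
    set L := 2 ^ (l - 1) with hL
    rw [abs_mul]
    refine (mul_le_of_le_one_left (abs_nonneg _) (hε l)).trans ?_
    rw [term_eq L (m - l) m l hl1 rfl (by omega), abs_mul, abs_of_nonneg (by positivity)]
    calc _ ≤ ((2 * L : ℕ) : ℝ) ^ 2 * ∑ u ∈ Finset.range (2 ^ (m - l)),
        ∑ v ∈ Finset.range (2 ^ (m - l)),
          CV * (CS * deficit K (dHalf L) (pgram L a b u v (u ^^^ v)) +
            CS * deficit K (dHalf L) (pgram L b c v (u ^^^ v) u) +
            CS * deficit K (dHalf L) (pgram L c a (u ^^^ v) u v)) := by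
          refine mul_le_mul_of_nonneg_left ?_ (by positivity)
          refine (Finset.abs_sum_le_sum_abs _ _).trans (Finset.sum_le_sum fun u hu => ?_)
          exact (Finset.abs_sum_le_sum_abs _ _).trans (Finset.sum_le_sum fun v hv =>
            hK l hl u hu v hv)
      _ = _ := by
          simp only [mul_add, Finset.sum_add_distrib, ← Finset.mul_sum, levelDef, ← hL]
          rw [rot_sum (m - l) (fun u v w => deficit K (dHalf L) (pgram L b c u v w)),
            rot_sum_two (m - l) (fun u v w => deficit K (dHalf L) (pgram L c a u v w))]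
          ring
  refine (Finset.abs_sum_le_sum_abs _ _).trans ((Finset.sum_le_sum key).trans ?_)
  rw [← Finset.mul_sum, Finset.sum_add_distrib, Finset.sum_add_distrib]
  refine (mul_le_mul_of_nonneg_left (add_le_add (add_le_add (sum_levelDef_le hT K m a b)
    (sum_levelDef_le hT K m b c)) (sum_levelDef_le hT K m c a)) (mul_nonneg hCV hCS)).trans ?_
  exact le_of_eq (by ring)

end Vale.Agent.P075
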