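import Vale.Agent.P075.Analysis

/-!
The sums in the dyadic form are finite for admissible inputs.
-/

namespace Vale.Agent.P075

/-- The sum over the triples of one scale has only finitely many nonzero summands. -/
def FiniteSums : Prop :=
  ∀ (k : ℤ) (F₀ F₁ F₂ : ℝ × ℝ → ℝ), Admissible F₀ → Admissible F₁ → Admissible F₂ →
    {t : XorTriple | LTerm k F₀ F₁ F₂ t.1.1 t.1.2.1 t.1.2.2 ≠ 0}.Finite

theorem finiteSums : FiniteSums := by
  intro k F₀ F₁ F₂ h0 h1 _
  obtain ⟨P0, hP0⟩ := exists_inBox h0.2.2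
  obtain ⟨P1, hP1⟩ := exists_inBox h1.2.2
  obtain ⟨N, hN⟩ := exists_nat_ge ((2:ℝ) ^ max P0 P1 / (2:ℝ) ^ k)
  rw [div_le_iff₀ (two_zpow_pos k), mul_comm] at hN
  have key : ((Subtype.val : XorTriple → ℕ × ℕ × ℕ) ⁻¹'
      (Set.Iio N ×ˢ (Set.Iio N ×ˢ Set.Iio N))).Finite :=
    ((Set.finite_Iio N).prod ((Set.finite_Iio N).prod (Set.finite_Iio N))).preimage
      Subtype.val_injective.injOn
  refine key.subset fun t ht => ?_
  by_contra hc
  refine ht (LTerm_eq_zero (hP0 _ (le_max_left _ _)) (hP1 _ (le_max_right _ _)) hN ?_)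
  simp only [Set.mem_preimage, Set.mem_prod, Set.mem_Iio] at hc
  omega

end Vale.Agent.P075
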