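import Vale.Agent.P075.Base

/-!
One level of the telescoping: deficits are dominated by the drop of the potential.
-/

open Matrix

noncomputable section

namespace Vale.Agent.P075

/-- The normalised block of side `n` at position `(u, v)`. -/
def blk (n : ℕ) (a : ℕ → ℕ → ℝ) (u v : ℕ) : Matrix (Fin n) (Fin n) ℝ :=
  Matrix.of fun i j => a (u * n + i) (v * n + j) / n

/-- The positive operator at the shared vertex. -/
def gram (n : ℕ) (a b : ℕ → ℕ → ℝ) (u v w : ℕ) : Matrix (Fin n) (Fin n) ℝ :=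
  (blk n a u v)ᵀ * blk n a u v + blk n b v w * (blk n b v w)ᵀ

/-- The potential at side `n` with `N` intervals per axis. -/
def pot (s : ℝ) (n N : ℕ) (a b : ℕ → ℕ → ℝ) : ℝ :=
  (n:ℝ) ^ 2 * ∑ u ∈ Finset.range N, ∑ v ∈ Finset.range N, fTr s (gram n a b u v (u ^^^ v))

/-- Offset `i` in the half `h`. -/
def halfEquiv (L : ℕ) : Fin L × Fin 2 ≃ Fin (2 * L) :=
  (Equiv.prodComm _ _).trans finProdFinEquiv

@[simp] lemma halfEquiv_val (L : ℕ) (p : Fin L × Fin 2) :
    (halfEquiv L p : ℕ) = p.1 + L * p.2 := by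
  simp [halfEquiv, finProdFinEquiv]

/-- The block of side `2L`, indexed by offset and half. -/
def par (L : ℕ) (a : ℕ → ℕ → ℝ) (u v : ℕ) : Matrix (Fin L × Fin 2) (Fin L × Fin 2) ℝ :=
  (blk (2 * L) a u v).submatrix (halfEquiv L) (halfEquiv L)

/-- `gram` on the block of side `2L`. -/
def pgram (L : ℕ) (a b : ℕ → ℕ → ℝ) (u v w : ℕ) : Matrix (Fin L × Fin 2) (Fin L × Fin 2) ℝ :=
  (par L a u v)ᵀ * par L a u v + par L b v w * (par L b v w)ᵀ

/-- Sign of the half. -/
def dHalf (L : ℕ) : Matrix (Fin L × Fin 2) (Fin L × Fin 2) ℝ :=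
  diagonal fun p => if p.2 = 0 then 1 else -1

lemma isSignDiag_dHalf (L : ℕ) : IsSignDiag (dHalf L) :=
  ⟨_, fun p => by by_cases h : p.2 = 0 <;> simp [h], rfl⟩

lemma gram_psd (n : ℕ) (a b : ℕ → ℕ → ℝ) (u v w : ℕ) : (gram n a b u v w).PosSemidef :=
  (posSemidef_transpose_mul _).add (posSemidef_mul_transpose _)

lemma pgram_psd (L : ℕ) (a b : ℕ → ℕ → ℝ) (u v w : ℕ) : (pgram L a b u v w).PosSemidef :=
  (posSemidef_transpose_mul _).add (posSemidef_mul_transpose _)

lemma trace_submatrix_equiv {m n : Type*} [Fintype m] [Fintype n] (M : Matrix n n ℝ) (e : m ≃ n) :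
    (M.submatrix e e).trace = M.trace :=
  e.sum_comp fun i => M i i

lemma fTr_submatrix {m n : Type*} [Fintype m] [DecidableEq m] [Fintype n] [DecidableEq n]
    (M : Matrix n n ℝ) (e : m ≃ n) (s : ℝ) : fTr s (M.submatrix e e) = fTr s M := by
  have h1 : M.submatrix e e + s • 1 = (M + s • 1).submatrix e e := by
    rw [← submatrix_one_equiv e]
    rfl
  rw [fTr, fTr, gMat, gMat, h1, inv_submatrix_equiv, submatrix_mul_equiv, trace_submatrix_equiv,
    trace_submatrix_equiv]

lemma fTr_pgram (L : ℕ) (a b : ℕ → ℕ → ℝ) (u v w : ℕ) (s : ℝ) :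
    fTr s (pgram L a b u v w) = fTr s (gram (2 * L) a b u v w) := by
  have h : pgram L a b u v w
      = (gram (2 * L) a b u v w).submatrix (halfEquiv L) (halfEquiv L) := by
    simp [pgram, gram, par, transpose_submatrix, submatrix_mul_equiv, submatrix_add]
  rw [h, fTr_submatrix]

lemma fTr_conj {n : Type*} [Fintype n] [DecidableEq n] {D M : Matrix n n ℝ} (hD : IsSignDiag D)
    (hM : M.PosSemidef) {s : ℝ} (hs : 0 < s) : fTr s (D * M * D) = fTr s M := by
  have e : ∀ X : Matrix n n ℝ, (D * X * D).trace = X.trace := fun X => by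
    rw [trace_mul_comm, ← Matrix.mul_assoc, hD.sq_one, Matrix.one_mul]
  rw [fTr, fTr, hD.gMat_conj hM hs, e, e]

lemma fTr_blockDiagonal {m o : Type*} [Fintype m] [DecidableEq m] [Fintype o] [DecidableEq o]
    (B : o → Matrix m m ℝ) (hB : ∀ k, (B k).PosSemidef) {s : ℝ} (hs : 0 < s) :
    fTr s (blockDiagonal B) = ∑ k, fTr s (B k) := by
  have hu : ∀ k, IsUnit (B k + s • 1 : Matrix m m ℝ).det := fun k => by
    refine (PosDef.det_pos ?_).ne'.isUnit
    exact PosDef.posSemidef_add (hB k) (PosDef.one.smul hs)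
  have h1 : blockDiagonal B + s • 1 = blockDiagonal fun k => B k + s • 1 := by
    rw [← blockDiagonal_one, ← blockDiagonal_smul, ← blockDiagonal_add]
    rfl
  have h2 : (blockDiagonal B + s • 1)⁻¹ = blockDiagonal fun k => (B k + s • 1)⁻¹ := by
    refine Matrix.inv_eq_right_inv ?_
    rw [h1, ← blockDiagonal_mul]
    simp only [fun k => mul_nonsing_inv _ (hu k)]
    exact blockDiagonal_one
  simp only [fTr, gMat, h2, ← blockDiagonal_mul, trace_blockDiagonal, Finset.mul_sum,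
    ← Finset.sum_sub_distrib]

lemma xor_double (u v h g : ℕ) (hh : h < 2) (hg : g < 2) :
    (2 * u + h) ^^^ (2 * v + g) = 2 * (u ^^^ v) + (h ^^^ g) := by
  have h1 : ((2 * u + h) ^^^ (2 * v + g)) / 2 = (2 * u + h) / 2 ^^^ (2 * v + g) / 2 := Nat.xor_div_two
  have h2 : ((2 * u + h) ^^^ (2 * v + g)) % 2 = ((2 * u + h) + (2 * v + g)) % 2 := Nat.xor_mod_two_eq
  rw [show (2 * u + h) / 2 = u by omega, show (2 * v + g) / 2 = v by omega] at h1
  interval_cases h <;> interval_cases g <;>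
    simp only [Nat.xor_self, Nat.zero_xor, Nat.xor_zero] <;> omega

lemma sum_range_double (N : ℕ) (F : ℕ → ℝ) :
    ∑ x ∈ Finset.range (2 * N), F x = ∑ u ∈ Finset.range N, ∑ h : Fin 2, F (2 * u + h) := by
  induction N with
  | zero => simp
  | succ N ih =>
    rw [show 2 * (N + 1) = (2 * N + 1) + 1 by ring, Finset.sum_range_succ, Finset.sum_range_succ,
      ih, Finset.sum_range_succ _ N, Fin.sum_univ_two]
    simp only [Fin.val_zero, Fin.val_one, add_zero]
    ring

variable (L : ℕ) (a b : ℕ → ℕ → ℝ)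

lemma par_apply (u v : ℕ) (p q : Fin L × Fin 2) :
    par L a u v p q = blk L a (2 * u + p.2) (2 * v + q.2) p.1 q.1 / 2 := by
  simp only [par, submatrix_apply, blk, Matrix.of_apply, halfEquiv_val]
  push_cast
  rw [show u * (2 * L) + ((p.1:ℕ) + L * p.2) = (2 * u + p.2) * L + p.1 by ring,
    show v * (2 * L) + ((q.1:ℕ) + L * q.2) = (2 * v + q.2) * L + q.1 by ring]
  ring

/-- Averages of the children. -/
def avg (u v : ℕ) (β : Fin 2) : Matrix (Fin L) (Fin L) ℝ :=
  (2⁻¹ : ℝ) •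
    (gram L a b (2 * u) (2 * v + β) ((2 * u) ^^^ (2 * v + β)) +
      gram L a b (2 * u + 1) (2 * v + β) ((2 * u + 1) ^^^ (2 * v + β)))

lemma pgram_add_conj (u v : ℕ) :
    pgram L a b u v (u ^^^ v) + dHalf L * pgram L a b u v (u ^^^ v) * dHalf L
      = blockDiagonal (avg L a b u v) := by
  ext ⟨i, β⟩ ⟨j, γ⟩
  rw [blockDiagonal_apply]
  simp only [Matrix.add_apply, dHalf, mul_diagonal, diagonal_mul]
  have x00 : (2 * u) ^^^ (2 * v) = 2 * (u ^^^ v) := by
    simpa using xor_double u v 0 0 (by norm_num) (by norm_num)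
  have x01 : (2 * u) ^^^ (2 * v + 1) = 2 * (u ^^^ v) + 1 := by
    simpa using xor_double u v 0 1 (by norm_num) (by norm_num)
  have x10 : (2 * u + 1) ^^^ (2 * v) = 2 * (u ^^^ v) + 1 := by
    simpa using xor_double u v 1 0 (by norm_num) (by norm_num)
  have x11 : (2 * u + 1) ^^^ (2 * v + 1) = 2 * (u ^^^ v) := by
    simpa using xor_double u v 1 1 (by norm_num) (by norm_num)
  fin_cases β <;> fin_cases γ <;>
    simp [avg, pgram, gram, Matrix.mul_apply, par_apply, Fintype.sum_prod_type, x00, x01, x10, x11,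
      Finset.sum_add_distrib] <;>
    simp only [Finset.mul_sum, ← Finset.sum_add_distrib, ← Finset.sum_neg_distrib] <;>
    first
    | exact Finset.sum_congr rfl fun k _ => by ring
    | exact Finset.sum_eq_zero fun k _ => by ring

lemma step (N : ℕ) {s : ℝ} (hs : 0 < s) (hT : TraceFacts) :
    ((2 * L : ℕ) : ℝ) ^ 2 * ∑ u ∈ Finset.range N, ∑ v ∈ Finset.range N,
      (fTr s (pgram L a b u v (u ^^^ v) + dHalf L * pgram L a b u v (u ^^^ v) * dHalf L)
        - fTr s (pgram L a b u v (u ^^^ v))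
        - fTr s (dHalf L * pgram L a b u v (u ^^^ v) * dHalf L))
      ≤ 2 * (pot s L (2 * N) a b - pot s (2 * L) N a b) := by
  have e : pot s L (2 * N) a b = (L:ℝ) ^ 2 * ∑ u ∈ Finset.range N, ∑ v ∈ Finset.range N,
      ∑ β : Fin 2, (fTr s (gram L a b (2 * u) (2 * v + β) ((2 * u) ^^^ (2 * v + β))) +
        fTr s (gram L a b (2 * u + 1) (2 * v + β) ((2 * u + 1) ^^^ (2 * v + β)))) := by
    rw [pot, sum_range_double]
    congr 1
    refine Finset.sum_congr rfl fun u _ => ?_
    simp only [sum_range_double N, Fin.sum_univ_two, Fin.val_zero, Fin.val_one, add_zero,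
      Finset.sum_add_distrib]
    ring
  rw [e, pot]
  push_cast
  simp only [Finset.mul_sum, ← Finset.sum_sub_distrib]
  refine Finset.sum_le_sum fun u _ => Finset.sum_le_sum fun v _ => ?_
  rw [fTr_conj (isSignDiag_dHalf L) (pgram_psd L a b u v _) hs, pgram_add_conj,
    fTr_blockDiagonal (avg L a b u v)
      (fun β => ((gram_psd ..).add (gram_psd ..)).smul (by norm_num)) hs,
    fTr_pgram]
  rw [← Finset.mul_sum]
  have key : ∑ β : Fin 2, fTr s (avg L a b u v β) ≤ (∑ β : Fin 2,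
      (fTr s (gram L a b (2 * u) (2 * v + β) ((2 * u) ^^^ (2 * v + β))) +
        fTr s (gram L a b (2 * u + 1) (2 * v + β) ((2 * u + 1) ^^^ (2 * v + β))))) / 2 := by
    rw [Finset.sum_div]
    exact Finset.sum_le_sum fun β _ => (hT _ s hs _ _ (gram_psd ..) (gram_psd ..)).2.2.1
  nlinarith [sq_nonneg (L:ℝ), mul_le_mul_of_nonneg_left key (sq_nonneg (L:ℝ))]

end Vale.Agent.P075
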