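import Vale.Agent.P075.Base

/-!
Trace inequalities for `gMat` and `fTr`.
-/

open Matrix

noncomputable section

namespace Vale.Agent.P075.TraceAux

variable {n : Type*} [Fintype n] [DecidableEq n]

omit [DecidableEq n] [Fintype n] in
lemma psd_transpose {M : Matrix n n ℝ} (h : M.PosSemidef) : Mᵀ = M := by
  simpa using h.isHermitian.eq

lemma trace_mul_nonneg {P Q : Matrix n n ℝ} (hP : P.PosSemidef) (hQ : Q.PosSemidef) :
    0 ≤ (P * Q).trace := by
  obtain ⟨S⟩ := exists_spec hP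
  have hpsd : (S.Uᵀ * Q * S.U).PosSemidef := by simpa using hQ.conjTranspose_mul_mul_same S.U
  have e : (P * Q).trace = ∑ i, S.d i ^ 2 * (S.Uᵀ * Q * S.U) i i := by
    conv_lhs => rw [S.eq]
    rw [Matrix.mul_assoc, Matrix.mul_assoc, trace_mul_comm, Matrix.mul_assoc, Matrix.mul_assoc,
      ← Matrix.mul_assoc S.Uᵀ]
    simp [trace, diagonal_mul]
  rw [e]
  exact Finset.sum_nonneg fun i _ => mul_nonneg (sq_nonneg _) hpsd.diag_nonneg

lemma inv_transpose {A : Matrix n n ℝ} (hA : A.PosDef) : (A⁻¹)ᵀ = A⁻¹ :=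
  psd_transpose hA.inv.posSemidef

lemma inv_identity {A B : Matrix n n ℝ} (hA : A.PosDef) (hB : B.PosDef) :
    A⁻¹ - B⁻¹ - B⁻¹ * (B - A) * B⁻¹ = B⁻¹ * (B - A) * A⁻¹ * ((B - A) * B⁻¹) := by
  have ua : IsUnit A.det := hA.det_pos.ne'.isUnit
  have ub : IsUnit B.det := hB.det_pos.ne'.isUnit
  have e1 : A⁻¹ - B⁻¹ = B⁻¹ * (B - A) * A⁻¹ := by
    rw [Matrix.mul_sub, Matrix.sub_mul, nonsing_inv_mul _ ub, Matrix.one_mul,
      mul_nonsing_inv_cancel_right _ _ ua]
  have e2 : A⁻¹ - B⁻¹ = A⁻¹ * (B - A) * B⁻¹ := by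
    rw [Matrix.mul_sub, Matrix.sub_mul, nonsing_inv_mul _ ua, Matrix.one_mul,
      mul_nonsing_inv_cancel_right _ _ ub]
  calc A⁻¹ - B⁻¹ - B⁻¹ * (B - A) * B⁻¹
      = A⁻¹ * (B - A) * B⁻¹ - B⁻¹ * (B - A) * B⁻¹ := by rw [← e2]
    _ = (A⁻¹ - B⁻¹) * ((B - A) * B⁻¹) := by simp [Matrix.sub_mul, Matrix.mul_assoc]
    _ = _ := by rw [e1]

lemma inv_remainder_psd {A B : Matrix n n ℝ} (hA : A.PosDef) (hB : B.PosDef) :
    (A⁻¹ - B⁻¹ - B⁻¹ * (B - A) * B⁻¹).PosSemidef := by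
  rw [inv_identity hA hB]
  have h := hA.inv.posSemidef.conjTranspose_mul_mul_same ((B - A) * B⁻¹)
  have e : ((B - A) * B⁻¹)ᴴ = B⁻¹ * (B - A) := by
    simp [transpose_mul, inv_transpose hB, psd_transpose hA.posSemidef,
      psd_transpose hB.posSemidef]
  rwa [e] at h

lemma inv_antitone {A B : Matrix n n ℝ} (hA : A.PosDef) (hB : B.PosDef)
    (h : (B - A).PosSemidef) : (A⁻¹ - B⁻¹).PosSemidef := by
  have h2 := h.conjTranspose_mul_mul_same B⁻¹
  rw [conjTranspose_eq_transpose_of_trivial, inv_transpose hB] at h2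
  simpa using (inv_remainder_psd hA hB).add h2

omit [Fintype n] in
lemma shift_posDef {X : Matrix n n ℝ} (hX : X.PosSemidef) {s : ℝ} (hs : 0 < s) :
    (X + s • 1).PosDef :=
  PosDef.posSemidef_add hX (PosDef.one.smul hs)

lemma gMat_eq_sub {X : Matrix n n ℝ} (hX : X.PosSemidef) {s : ℝ} (hs : 0 < s) :
    gMat s X = 1 - s • (X + s • 1)⁻¹ := by
  have u : IsUnit (X + s • 1 : Matrix n n ℝ).det := (shift_posDef hX hs).det_pos.ne'.isUnit
  conv_lhs => rw [gMat, show X = X + s • 1 - s • 1 from (add_sub_cancel_right _ _).symm]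
  rw [Matrix.sub_mul]
  simp [add_sub_cancel_right, mul_nonsing_inv _ u]

lemma gMat_mono {X Y : Matrix n n ℝ} (hX : X.PosSemidef) (hY : Y.PosSemidef) {s : ℝ}
    (hs : 0 < s) : (gMat s (X + Y) - gMat s X).PosSemidef := by
  rw [gMat_eq_sub (hX.add hY) hs, gMat_eq_sub hX hs]
  have := (inv_antitone (shift_posDef hX hs) (shift_posDef (hX.add hY) hs)
    (by rwa [show X + Y + s • 1 - (X + s • 1) = Y by abel])).smul hs.le
  rwa [show (1 : Matrix n n ℝ) - s • (X + Y + s • 1)⁻¹ - (1 - s • (X + s • 1)⁻¹)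
      = s • ((X + s • 1)⁻¹ - (X + Y + s • 1)⁻¹) by rw [smul_sub]; abel]

lemma gMat_psd {X : Matrix n n ℝ} (hX : X.PosSemidef) {s : ℝ} (hs : 0 < s) :
    (gMat s X).PosSemidef := by
  obtain ⟨S⟩ := exists_spec hX
  rw [S.gMat_eq hs]
  simpa using (PosSemidef.diagonal (d := fun i => S.d i ^ 2 / (S.d i ^ 2 + s))
    (fun i => by positivity)).mul_mul_conjTranspose_same S.U

lemma fTr_eq_inv {X : Matrix n n ℝ} (hX : X.PosSemidef) {s : ℝ} (hs : 0 < s) :
    fTr s X = X.trace - s * (Fintype.card n) + s ^ 2 * ((X + s • 1)⁻¹).trace := by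
  rw [fTr, gMat_eq_sub hX hs, trace_sub, trace_one, trace_smul, smul_eq_mul]
  ring

lemma strong_superadd {P R : Matrix n n ℝ} (hP : P.PosSemidef) (hR : R.PosSemidef) {s : ℝ}
    (hs : 0 < s) :
    s * (P * ((P + s • 1)⁻¹ * (P + s • 1)⁻¹) * gMat s R).trace ≤
      (gMat s P).trace + (gMat s R).trace - (gMat s (P + R)).trace := by
  obtain ⟨S⟩ := exists_spec hP
  set C := diagonal S.d * S.Uᵀ with hCdef
  have hCt : Cᵀ = S.U * diagonal S.d := by simp [hCdef, transpose_mul]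
  have hPC : Cᵀ * C = P := by
    conv_rhs => rw [S.eq]
    rw [hCt, hCdef, Matrix.mul_assoc, ← Matrix.mul_assoc (diagonal S.d), diagonal_mul_diagonal,
      ← Matrix.mul_assoc]
    simp [sq]
  have hCC : C * Cᵀ = diagonal (fun i => S.d i ^ 2) := by
    rw [hCt, hCdef, Matrix.mul_assoc, ← Matrix.mul_assoc S.Uᵀ, S.left, Matrix.one_mul,
      diagonal_mul_diagonal]
    simp [sq]
  set E := R + s • 1 with hE
  have hEd : E.PosDef := shift_posDef hR hs
  have uE : IsUnit E.det := hEd.det_pos.ne'.isUnit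
  set K := C * E⁻¹ * Cᵀ with hKdef
  have hKp : K.PosSemidef := by simpa using hEd.inv.posSemidef.mul_mul_conjTranspose_same C
  have hJd : (1 + K).PosDef := PosDef.one.add_posSemidef hKp
  have uJ : IsUnit (1 + K).det := hJd.det_pos.ne'.isUnit
  have wood : (P + R + s • 1)⁻¹ = E⁻¹ - E⁻¹ * Cᵀ * (1 + K)⁻¹ * C * E⁻¹ := by
    refine Matrix.inv_eq_right_inv ?_
    rw [show P + R + s • 1 = E + Cᵀ * C by rw [hPC, hE]; abel]
    calc (E + Cᵀ * C) * (E⁻¹ - E⁻¹ * Cᵀ * (1 + K)⁻¹ * C * E⁻¹)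
        = E * E⁻¹ + Cᵀ * C * E⁻¹ - (E * E⁻¹) * (Cᵀ * ((1 + K)⁻¹ * (C * E⁻¹))) -
            Cᵀ * (K * ((1 + K)⁻¹ * (C * E⁻¹))) := by
          simp only [hKdef, Matrix.add_mul, Matrix.mul_sub, Matrix.mul_assoc]
          abel
      _ = 1 + Cᵀ * C * E⁻¹ - Cᵀ * (((1 + K) * (1 + K)⁻¹) * (C * E⁻¹)) := by
          rw [mul_nonsing_inv _ uE, Matrix.one_mul]
          simp only [Matrix.add_mul, Matrix.one_mul, Matrix.mul_assoc, Matrix.mul_add]
          abel
      _ = 1 := by rw [mul_nonsing_inv _ uJ, Matrix.one_mul, Matrix.mul_assoc]; abel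
  have hd1 : (gMat s (P + R)).trace - (gMat s R).trace
      = ((1 + K)⁻¹ * (C * (s • (E⁻¹ * E⁻¹)) * Cᵀ)).trace := by
    rw [gMat_eq_sub (hP.add hR) hs, gMat_eq_sub hR hs, trace_sub, trace_sub, wood, smul_sub,
      trace_sub]
    simp only [← hE, trace_smul, Matrix.mul_smul, Matrix.smul_mul]
    rw [trace_mul_comm (1 + K)⁻¹, trace_mul_comm (E⁻¹ * Cᵀ * (1 + K)⁻¹ * C)]
    simp only [← Matrix.mul_assoc, smul_eq_mul]
    rw [trace_mul_comm _ C]
    simp only [← Matrix.mul_assoc]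
    ring
  have hd2 : ((1 + K)⁻¹ * (C * (s • (E⁻¹ * E⁻¹)) * Cᵀ)).trace ≤ ((1 + K)⁻¹ * K).trace := by
    have e : E⁻¹ - s • (E⁻¹ * E⁻¹) = E⁻¹ * R * E⁻¹ := by
      rw [show R = E - s • 1 by rw [hE, add_sub_cancel_right], Matrix.mul_sub, Matrix.sub_mul,
        nonsing_inv_mul _ uE, Matrix.one_mul]
      simp
    have hpsd : (E⁻¹ * R * E⁻¹).PosSemidef := by
      have := hR.conjTranspose_mul_mul_same E⁻¹
      rwa [conjTranspose_eq_transpose_of_trivial, inv_transpose hEd] at this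
    have := trace_mul_nonneg hJd.inv.posSemidef (hpsd.mul_mul_conjTranspose_same C)
    rw [← e, conjTranspose_eq_transpose_of_trivial, Matrix.mul_sub, Matrix.sub_mul,
      Matrix.mul_sub, trace_sub] at this
    linarith
  have hd3 : ((1 + K)⁻¹ * K).trace = (Fintype.card n : ℝ) - ((1 + K)⁻¹).trace := by
    have : (1 + K)⁻¹ * K = 1 - (1 + K)⁻¹ := by
      have h := nonsing_inv_mul _ uJ
      rw [Matrix.mul_add, Matrix.mul_one] at h
      exact eq_sub_of_add_eq' h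
    rw [this, trace_sub, trace_one]
  set W := diagonal (fun i => 1 + S.d i ^ 2 / s) with hW
  have hWd : W.PosDef := PosDef.diagonal fun i => by positivity
  have hWi : W⁻¹ = diagonal (fun i => s / (S.d i ^ 2 + s)) := by
    refine Matrix.inv_eq_right_inv ?_
    rw [hW, diagonal_mul_diagonal, ← diagonal_one]
    congr 1
    funext i
    field_simp
    ring
  have hgP : (gMat s P).trace = (Fintype.card n : ℝ) - (W⁻¹).trace := by
    rw [S.gMat_eq hs, S.trace_conj, hWi, trace_diagonal, eq_sub_iff_add_eq,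
      ← Finset.sum_add_distrib]
    have : ∀ i, S.d i ^ 2 / (S.d i ^ 2 + s) + s / (S.d i ^ 2 + s) = 1 := fun i => by
      rw [← add_div, div_self (by positivity)]
    simp [this]
  have hconv : (W⁻¹ * (W - (1 + K)) * W⁻¹).trace ≤ ((1 + K)⁻¹).trace - (W⁻¹).trace := by
    have := (inv_remainder_psd hJd hWd).trace_nonneg
    rw [trace_sub, trace_sub] at this
    linarith
  have hKK : W - (1 + K) = s⁻¹ • (C * gMat s R * Cᵀ) := by
    have hW' : W = 1 + s⁻¹ • (C * Cᵀ) := by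
      rw [hCC, hW, ← diagonal_one, ← diagonal_smul, diagonal_add]
      congr 1
      funext i
      simp [div_eq_inv_mul]
    rw [gMat_eq_sub hR hs, ← hE, hW', hKdef, Matrix.mul_sub, Matrix.sub_mul, smul_sub,
      Matrix.mul_one]
    simp [smul_smul, inv_mul_cancel₀ hs.ne', Matrix.mul_assoc]
  have hfin : (W⁻¹ * (W - (1 + K)) * W⁻¹).trace
      = s * (P * ((P + s • 1)⁻¹ * (P + s • 1)⁻¹) * gMat s R).trace := by
    have e : Cᵀ * (W⁻¹ * W⁻¹) * C
        = s ^ 2 • (P * ((P + s • 1)⁻¹ * (P + s • 1)⁻¹)) := by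
      rw [S.inv_shift hs, S.conj_mul]
      conv_rhs => enter [2, 1]; rw [S.eq]
      rw [S.conj_mul, hCt, hCdef, hWi]
      have : ∀ v : n → ℝ, s ^ 2 • (S.U * diagonal v * S.Uᵀ)
          = S.U * diagonal (fun i => s ^ 2 * v i) * S.Uᵀ := fun v => by
        rw [← Matrix.smul_mul, ← Matrix.mul_smul, ← diagonal_smul]
        rfl
      rw [this]
      rw [diagonal_mul_diagonal, Matrix.mul_assoc S.U, diagonal_mul_diagonal,
        ← Matrix.mul_assoc, Matrix.mul_assoc S.U, diagonal_mul_diagonal]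
      congr 2
      refine congrArg diagonal (funext fun i => ?_)
      field_simp
    rw [hKK, Matrix.mul_smul, Matrix.smul_mul, trace_smul, trace_mul_comm, smul_eq_mul]
    calc s⁻¹ * (W⁻¹ * (W⁻¹ * (C * gMat s R * Cᵀ))).trace
        = s⁻¹ * (Cᵀ * (W⁻¹ * W⁻¹) * C * gMat s R).trace := by
          rw [← Matrix.mul_assoc W⁻¹, ← Matrix.mul_assoc (W⁻¹ * W⁻¹), trace_mul_comm]
          simp [Matrix.mul_assoc]
      _ = _ := by
          rw [e, Matrix.smul_mul, trace_smul, smul_eq_mul]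
          field_simp
  linarith

theorem traceFacts : TraceFacts := by
  intro n _ _ s hs X Y hX hY
  refine ⟨fun D hD => ?_, ?_, ?_, ?_⟩
  · have m1 := gMat_mono hX hY hs
    have m2 : (gMat s (X + Y) - gMat s Y).PosSemidef := by
      rw [add_comm]; exact gMat_mono hY hX hs
    have a := trace_mul_nonneg m1 (hD.posSemidef_conj (gMat_psd hY hs))
    have b := trace_mul_nonneg (gMat_psd (hX.add hY) hs) (hD.posSemidef_conj m2)
    simp only [Matrix.sub_mul, Matrix.mul_sub, trace_sub, ← Matrix.mul_assoc] at a b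
    linarith
  · obtain ⟨S⟩ := exists_spec hX
    rw [S.fTr_eq hs]
    exact Finset.sum_nonneg fun i _ => by positivity
  · have hM : ((2⁻¹ : ℝ) • (X + Y)).PosSemidef := (hX.add hY).smul (by norm_num)
    rw [fTr_eq_inv hM hs, fTr_eq_inv hX hs, fTr_eq_inv hY hs]
    set M := (2⁻¹ : ℝ) • (X + Y) with hMdef
    have a := (inv_remainder_psd (shift_posDef hX hs) (shift_posDef hM hs)).trace_nonneg
    have b := (inv_remainder_psd (shift_posDef hY hs) (shift_posDef hM hs)).trace_nonneg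
    set T := (M + s • 1)⁻¹
    have c : (T * (M + s • 1 - (X + s • 1)) * T).trace +
        (T * (M + s • 1 - (Y + s • 1)) * T).trace = 0 := by
      rw [← trace_add, ← Matrix.add_mul, ← Matrix.mul_add,
        show M + s • 1 - (X + s • 1) + (M + s • 1 - (Y + s • 1)) = 0 by
          rw [hMdef]; ext i j; simp; ring]
      simp
    have d : M.trace = (X.trace + Y.trace) / 2 := by
      rw [hMdef, trace_smul, trace_add, smul_eq_mul]; ring
    simp only [trace_sub] at a b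
    have h2 : T.trace * 2 ≤ ((X + s • 1)⁻¹).trace + ((Y + s • 1)⁻¹).trace := by linarith
    nlinarith [mul_le_mul_of_nonneg_left h2 (sq_nonneg s)]
  · have h := mul_le_mul_of_nonneg_left (strong_superadd hX hY hs) hs.le
    rw [fTr, fTr, fTr, trace_add]
    nlinarith [h]

end Vale.Agent.P075.TraceAux
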